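import Vale.Agent.P092MA.Fam
import Vale.Agent.P092RE.NT
import Vale.Agent.P092GK.Hm

/-!
P092 (helper44): the integral of a covariant family is finite on one vector.
-/

set_option linter.all false

open scoped InnerProductSpace ENNReal NNReal Pointwise
open MeasureTheory Filter Topology ContinuousLinearMap Set

namespace Vale.Agent.P092FV

open Vale.Agent.P092CP Vale.Agent.P092RD Vale.Agent.P092MA Vale.Agent.P092RE
open Vale.Agent.P092GK (Hm mdl eo eo_zero)
open Vale.Agent.P092.RC (Cm)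

variable {G G' K : Type} [Group G] [TopologicalSpace G] [IsTopologicalGroup G]
  [LocallyCompactSpace G] [SecondCountableTopology G] [T2Space G] [MeasurableSpace G] [BorelSpace G]
  [Group G'] [TopologicalSpace G'] [IsTopologicalGroup G'] [LocallyCompactSpace G']
  [SecondCountableTopology G'] [T2Space G'] [MeasurableSpace G'] [BorelSpace G']
  [NormedAddCommGroup K] [InnerProductSpace ℂ K] [CompleteSpace K] {μ : Measure G}
  [μ.IsHaarMeasure] {μ' : Measure G'} [μ'.IsHaarMeasure] {W : Set (K →L[ℂ] K)}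
  {Z : Type} [TopologicalSpace Z] [T2Space Z] [LocallyCompactSpace Z] [SecondCountableTopology Z]
  [MeasurableSpace Z] [BorelSpace Z] [MulAction G Z] [ContinuousSMul G Z]
  {N H : Subgroup G} {η α lam : Measure G} {ν : Measure Z}

/-- an invariant measure on a slab -/
theorem cover [SMulInvariantMeasure G Z ν] [IsFiniteMeasureOnCompacts ν] (hη : Hm N η)
    (uN : ∀ x ∈ N, mdl N x = 0) {Z₁ : Set Z} (hZ : IsCompact Z₁) : ∃ B : ℝ≥0∞, B ≠ ∞ ∧
      ∀ Φ : Z → ℝ≥0∞, Measurable Φ → (∀ᵐ z ∂ν, Φ z ≠ 0 → ∃ n ∈ N, ∃ y ∈ Z₁, z = n • y) →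
        ∀ k, (∀ y ∈ Z₁, ∫⁻ n, Φ (n⁻¹ • y) ∂η ≤ k) → ∫⁻ z, Φ z ∂ν ≤ B * k := by
  have := hη.sfin
  obtain ⟨V, hV, h1⟩ := exists_compact_mem_nhds (1 : G)
  have cZ : IsCompact ((V ∩ N) • Z₁) := (hV.inter_right hη.cl).smul_set hZ
  have mZ := cZ.measurableSet
  refine ⟨(η V)⁻¹ * ν ((V ∩ N) • Z₁), ENNReal.mul_ne_top (ENNReal.inv_ne_top.2 (hη.pos' h1))
    cZ.measure_ne_top, fun Φ mΦ h2 k hk => ?_⟩
  have m1 : Measurable fun p : G × Z => ((V ∩ N) • Z₁).indicator (1 : Z → ℝ≥0∞) (p.1 • p.2) *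
      Φ p.2 := ((measurable_one.indicator mZ).comp continuous_smul.measurable).mul
        (mΦ.comp measurable_snd)
  have m2 : Measurable fun p : G × Z => ((V ∩ N) • Z₁).indicator (1 : Z → ℝ≥0∞) p.2 *
      Φ (p.1⁻¹ • p.2) := ((measurable_one.indicator mZ).comp measurable_snd).mul
        (mΦ.comp (by fun_prop : Continuous fun p : G × Z => p.1⁻¹ • p.2).measurable)
  rw [mul_assoc, ← ENNReal.mul_le_iff_le_inv (hη.pos' h1) (hη.fin V hV).ne,
    ← lintegral_const_mul _ mΦ]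
  calc _ ≤ ∫⁻ z, ∫⁻ n, ((V ∩ N) • Z₁).indicator (1 : Z → ℝ≥0∞) (n • z) * Φ z ∂η ∂ν := by
        refine lintegral_mono_ae (h2.mono fun z hz => ?_)
        rcases eq_or_ne (Φ z) 0 with h3 | h3
        · simp [h3]
        obtain ⟨n, hn, y, hy, rfl⟩ := hz h3
        refine le_trans (mul_le_mul_left ?_ _) (lintegral_mul_const _
          ((measurable_one.indicator mZ).comp (measurable_smul_const (n • y)))).ge
        have h4 := hη.lint_right hn (V.indicator 1)
        rw [uN n hn, eo_zero, one_mul, lintegral_indicator_one hV.measurableSet] at h4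
        rw [← h4]
        refine lintegral_mono_ae (hη.ae.mono fun x hx => ?_)
        by_cases h5 : x * n ∈ V
        · rw [indicator_of_mem h5, Function.comp_apply, ← mul_smul,
            indicator_of_mem (Set.smul_mem_smul (s := V ∩ N) ⟨h5, N.mul_mem hx hn⟩ hy)]
          rfl
        · simp [h5]
    _ = ∫⁻ n, ∫⁻ z, ((V ∩ N) • Z₁).indicator (1 : Z → ℝ≥0∞) z * Φ (n⁻¹ • z) ∂ν ∂η := by
        rw [← lintegral_lintegral_swap m1.aemeasurable]
        refine lintegral_congr fun n => ?_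
        refine Eq.trans ?_
          ((measurePreserving_smul n ν).lintegral_comp (m2.comp (measurable_prodMk_left (x := n))))
        simp only [Function.comp_apply, inv_smul_smul]
    _ ≤ ∫⁻ z, ((V ∩ N) • Z₁).indicator (fun _ => k) z ∂ν := by
        rw [lintegral_lintegral_swap m2.aemeasurable]
        refine lintegral_mono fun z => ?_
        by_cases h3 : z ∈ (V ∩ N) • Z₁
        · simp only [indicator_of_mem h3, Pi.one_apply, one_mul]
          obtain ⟨n, hn, y, hy, rfl⟩ := h3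
          refine le_trans (le_of_eq ?_) (hk y hy)
          rw [← hη.lint_left hn.2]
          simp [mul_smul]
        · simp [h3]
    _ = _ := by rw [lintegral_indicator_const mZ, mul_comm]

/-- the multiplication by the indicator of a compact set has bounded sums of translates -/
theorem up_P (S : Side μ W) (h : Hm H lam) {D : Set G} (hD : IsCompact D) :
    Up S lam (fun g => g⁻¹) (S.P D) (lam (D * D⁻¹)) := fun ξ => by
  have := h.sfin
  have m : ∀ y : G, MeasurableSet {g : G | g⁻¹ * y ∈ D} := fun y =>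
    (measurable_inv.mul_const y) hD.measurableSet
  rw [Side.P, lint_sm S measurable_inv (Bd.ind hD.measurableSet), S.enorm_U,
    ← lintegral_const_mul'' _ (meas_sq _)]
  refine lintegral_mono fun y => mul_le_mul_left ?_ _
  have e : ∀ g : G, ‖D.indicator (1 : G → ℂ) (g⁻¹ * y)‖ₑ ^ 2 = {g : G | g⁻¹ * y ∈ D}.indicator 1 g :=
    fun g => by by_cases hg : g⁻¹ * y ∈ D <;> simp [hg]
  rw [lintegral_congr e, lintegral_indicator_one (m y), ← h.inter]
  rcases eq_empty_or_nonempty ({g : G | g⁻¹ * y ∈ D} ∩ H) with h0 | ⟨g₀, h1, h2⟩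
  · rw [h0, measure_empty]; exact zero_le
  rw [← (h.mp_left (H.inv_mem h2)).measure_preimage (hD.mul hD.inv).measurableSet.nullMeasurableSet]
  exact measure_mono fun g hg => ⟨_, h1, _, Set.inv_mem_inv.2 hg.1, by simp only; group⟩

theorem eq_zero_of_P (S : Side μ W) {T : K →L[ℂ] K} (h : ∀ D, IsCompact D → T * S.P D = 0) :
    T = 0 := by
  ext ξ
  have h1 := S.tendsto_m (l := atTop) (F := fun n => (compactCovering G n).indicator 1) (C := 1)
    (fun n => (Bd.ind (isCompact_compactCovering G n).measurableSet).meas)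
    (fun n x => by by_cases h : x ∈ compactCovering G n <;> simp [h]) Bd.one
    (.of_forall fun x => tendsto_const_nhds.congr' (by
      obtain ⟨n, hn⟩ := exists_mem_compactCovering x
      filter_upwards [eventually_ge_atTop n] with k hk
      rw [indicator_of_mem (compactCovering_subset G hk hn)])) ξ
  rw [S.m_one] at h1
  exact tendsto_nhds_unique ((T.continuous.tendsto _).comp h1) (tendsto_const_nhds.congr fun n =>
    (congrArg (fun X : K →L[ℂ] K => X ξ) (h _ (isCompact_compactCovering G n))).symm)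

/-- the estimate at one point of the slab -/
theorem point (C : Cpl μ μ' W) [SFinite η] [SFinite α] {P Q a b : K →L[ℂ] K} (hQ : Cm W Q)
    (ha : Cm W a) (hb : Cm W b) (e₁ : ∀ᵐ n ∂η, Q * C.s.π n = C.s.π n * Q)
    (e₂ : ∀ᵐ n ∂α, Q * C.s.π n = C.s.π n * Q) {c k : ℝ≥0∞} (lo : Lo C.s α id a c P)
    (up : Up C.s ((α.prod η).map fun q => q.1 * q.2) (fun g => g⁻¹) b k) :
    c * ∫⁻ n, C.t.Tr (C.s.π n⁻¹ * P * C.s.π (n⁻¹)⁻¹ * (Q * adjoint b)) ∂η ≤ k * C.t.Tr (a * Q) := by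
  have m := meas_Tr C.s C.t measurable_inv b (adjoint Q * adjoint a)
  rw [← C.tr_adj _ (cm_mul ha hQ), adj_mul]
  refine le_trans ?_ (up.Tr C.t measurable_inv _)
  rw [lintegral_map m measurable_mul]
  refine le_trans ?_ (lintegral_prod_symm _ (m.comp measurable_mul).aemeasurable).ge
  simp only [inv_inv, mul_assoc (C.s.π _), C.Tr_s_mul]
  refine (lintegral_const_mul _ (meas_Tr C.s C.t measurable_id P (Q * adjoint b))).ge.trans
    (lintegral_mono_ae (e₁.mono fun n hn => ?_))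
  rw [mul_assoc]
  refine (lo.Tr C.t measurable_id _).trans (lintegral_mono_ae (e₂.mono fun g hg => le_of_eq ?_))
  rw [Function.comp_apply, ← Tr_flip C hQ hb ha (by rw [map_mul, ← mul_assoc, hg, mul_assoc, hn, mul_assoc]), map_mul]
  simp only [mul_assoc, id]

variable {Y : Type} [TopologicalSpace Y] [T2Space Y] [LocallyCompactSpace Y]
  [SecondCountableTopology Y] [MeasurableSpace Y] [BorelSpace Y] [MulAction G' Y]
  [ContinuousSMul G' Y] [MulAction.IsPretransitive G Z] [MulAction.IsPretransitive G' Y]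
  {C : Cpl μ μ' W} {θ : Z → POM Y K} {w : Z} {F₁ F₂ : Set Y}

/-- **the data of a slab**: `N` and `α` fix `w`, the points `z` with `θ_z(F₁) θ_w(F₂) ≠ 0` are
bounded modulo `N`, and the trace of `θ_z(F₁) θ_w(F₂)` per unit volume of `α` is bounded -/
structure Slab (C : Cpl μ μ' W) (ν : Measure Z) (θ : Z → POM Y K) (N : Subgroup G) (α : Measure G)
    (w : Z) (F₁ F₂ : Set Y) : Prop where
  m₁ : MeasurableSet F₁
  m₂ : MeasurableSet F₂
  uni : ∀ x ∈ N, mdl N x = 0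
  fixN : ∀ n ∈ N, n • w = w
  fixA : ∀ᵐ g ∂α, g • w = w
  ds : ∃ (Z₁ : Set Z) (c c' : ℝ≥0∞), IsCompact Z₁ ∧ c ≠ 0 ∧ c ≠ ∞ ∧ c' ≠ ∞ ∧
    (∀ᵐ z ∂ν, (θ z).P F₁ * (θ w).P F₂ ≠ 0 → ∃ n ∈ N, ∃ y ∈ Z₁, z = n • y) ∧
    ∀ z ∈ Z₁, ∃ a, Cm W a ∧ Lo C.s α id a c ((θ z).P F₁) ∧ C.t.Tr (a * (θ w).P F₂) ≤ c'

theorem meas_fam (h : Fam C θ) (hP : ∀ z, (θ z).IsP) (m₁ : MeasurableSet F₁) (T : K →L[ℂ] K) :
    Measurable fun q : Z × G' => ‖(θ q.1).P F₁ (T (C.t.π q.2 C.t.Ω))‖ₑ ^ 2 := by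
  simp only [(hP _).enorm_P_sq m₁]
  exact (measurable_uncurry_of_continuous_of_measurable
    (u := fun g z => (θ z).ν (T (C.t.π g C.t.Ω)) F₁)
    (fun z => (cont_nu _ m₁).comp (T.continuous.comp (C.t.cont _)))
    fun g => (h.cont m₁ _).measurable).comp measurable_swap

theorem lint_fam [SFinite ν] (h : Fam C θ) (hP : ∀ z, (θ z).IsP) (m₁ : MeasurableSet F₁)
    (T : K →L[ℂ] K) : ∫⁻ z, C.t.Tr ((θ z).P F₁ * T) ∂ν =
      ∫⁻ g, mm ν θ (T (C.t.π g C.t.Ω)) F₁ ∂μ' := by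
  refine (lintegral_lintegral_swap (meas_fam h hP m₁ T).aemeasurable).trans ?_
  simp only [mul_ap, (hP _).enorm_P_sq m₁, h.mm_apply ν m₁]

/-- **the basic estimate** -/
theorem Slab.core [SMulInvariantMeasure G Z ν] [IsFiniteMeasureOnCompacts ν] [SFinite α]
    (s : Slab C ν θ N α w F₁ F₂) (h : Fam C θ) (hP : ∀ z, (θ z).IsP) (hη : Hm N η) :
    ∃ B : ℝ≥0∞, B ≠ ∞ ∧ ∀ b k, Cm W b →
      Up C.s ((α.prod η).map fun q => q.1 * q.2) (fun g => g⁻¹) b k →
        ∫⁻ g, mm ν θ (((θ w).P F₂ * adjoint b) (C.t.π g C.t.Ω)) F₁ ∂μ' ≤ B * k := by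
  have := hη.sfin
  obtain ⟨Z₁, c, c', hZ, c0, c2, c1, rel, ds⟩ := s.ds
  obtain ⟨B, hB, h1⟩ := cover (ν := ν) hη s.uni hZ
  have e : ∀ g, g • w = w → (θ w).P F₂ * C.s.π g = C.s.π g * (θ w).P F₂ := fun g hg =>
    comm_of_conj (by rw [← h.P_mov s.m₂, hg])
  refine ⟨B * (c⁻¹ * c'), ENNReal.mul_ne_top hB (ENNReal.mul_ne_top (ENNReal.inv_ne_top.2 c0) c1),
    fun b k hb up => ?_⟩
  rw [← lint_fam h hP s.m₁, mul_assoc]
  refine h1 (fun z => C.t.Tr ((θ z).P F₁ * ((θ w).P F₂ * adjoint b)))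
    (meas_fam h hP s.m₁ _).lintegral_prod_right' (rel.mono fun z hz h2 => hz fun h3 => h2 ?_)
    _ fun y hy => ?_
  · rw [← mul_assoc, h3, zero_mul]
    simp [Side.Tr]
  · obtain ⟨a, ha, lo, tr⟩ := ds y hy
    have h2 := point C (h.cm_P s.m₂ w) ha hb (hη.ae.mono fun n hn => e n (s.fixN n hn))
      (s.fixA.mono e) lo up
    simp only [h.P_mov s.m₁]
    rw [mul_assoc, ← ENNReal.mul_le_iff_le_inv c0 c2, mul_comm c']
    exact h2.trans (mul_le_mul_right tr _)

/-- **FV** -/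
theorem Slab.fv [SMulInvariantMeasure G Z ν] [IsFiniteMeasureOnCompacts ν] [SFinite α]
    (s : Slab C ν θ N α w F₁ F₂) (h : Fam C θ) (hP : ∀ z, (θ z).IsP) (hη : Hm N η)
    (hH : Hm H ((α.prod η).map fun q => q.1 * q.2)) (h0 : (θ w).P F₂ ≠ 0) :
    ∃ ξ, ξ ≠ 0 ∧ mm ν θ ξ F₁ ≠ ∞ := by
  obtain ⟨B, hB, h1⟩ := s.core h hP hη
  by_contra! h2
  refine h0 (eq_zero_of_P C.s fun D hD => ?_)
  have m := hD.measurableSet
  have h3 := h1 _ _ (C.s.cm_P m) (up_P C.s hH hD)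
  rw [C.s.adjoint_P m] at h3
  have h4 := ae_lt_top (by
    simp only [h.mm_apply ν s.m₁, ← (hP _).enorm_P_sq s.m₁]
    exact (meas_fam h hP s.m₁ _).lintegral_prod_left') (ne_top_of_le_ne_top
    (ENNReal.mul_ne_top hB (hH.fin _ (hD.mul hD.inv)).ne) h3)
  refine C.tr_zero _ (cm_mul (h.cm_P s.m₂ w) (C.s.cm_P m)) ?_
  rw [Side.Tr, lintegral_congr_ae (g := fun _ => 0) (h4.mono fun g hg => ?_), lintegral_zero]
  rw [not_not.1 fun e => hg.ne (h2 _ e)]
  simp

/-- **finite trace per unit volume of the stabiliser** -/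
theorem Slab.fin [IsFiniteMeasureOnCompacts ν] [SFinite α] {ν' : Measure Y}
    (s : Slab C ν θ N α w F₁ F₂) (h : D5 C ν θ ν') (hη : Hm N η) (h0 : ν' F₁ ≠ 0) :
    ∃ B : ℝ≥0∞, B ≠ ∞ ∧ ∀ b, Cm W b →
      Up C.s ((α.prod η).map fun q => q.1 * q.2) (fun g => g⁻¹) b 1 →
        C.t.Tr ((θ w).P F₂ * adjoint b) ≤ B := by
  have := h.inv
  obtain ⟨B, hB, h1⟩ := s.core h.fam h.isP hη
  refine ⟨B / ν' F₁, ENNReal.div_ne_top hB h0, fun b hb up => ?_⟩
  have h2 := h1 b 1 hb up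
  simp only [h.eq, Measure.smul_apply, smul_eq_mul, mul_one] at h2
  rw [lintegral_mul_const _ (C.t.meas_π _ _)] at h2
  exact (ENNReal.le_div_iff_mul_le (.inl h0) (.inr hB)).2 h2

end Vale.Agent.P092FV
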