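import Vale.Agent.P092FV.Hr
import Vale.Agent.P092TH.Mod

/-!
P092, higher rank (helper44): the slabs of the cones, and D5 for the family of the translates.
-/

set_option linter.all false

open scoped InnerProductSpace ENNReal NNReal Pointwise
open MeasureTheory Filter Topology ContinuousLinearMap Set

namespace Vale.Agent.P092FV

open Vale.Agent.P092CP Vale.Agent.P092RD Vale.Agent.P092RD.POM Vale.Agent.P092MA Vale.Agent.P092GK
open Vale.Agent.P092HR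
open Vale.Agent.P092RE (Up Lo)
open Vale.Agent.P092TH (tq tr_le_tq)
open Vale.Agent.P092.RC (Cm)

variable {k : Type} [NontriviallyNormedField k] [ProperSpace k] {G K : Type} [Group G]
  [TopologicalSpace G] [IsTopologicalGroup G] [LocallyCompactSpace G] [SecondCountableTopology G]
  [T2Space G] [MeasurableSpace G] [BorelSpace G] [NormedAddCommGroup K] [InnerProductSpace ℂ K]
  [CompleteSpace K] {μ : Measure G} [μ.IsHaarMeasure] {W : Set (K →L[ℂ] K)} {r : ℕ}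
  {X : Type} [NormedAddCommGroup X] [NormedSpace ℝ X] {F : FlD k G r} {C : Cpl μ μ W} {z : ℕ → G}
  {L : Aa r →ₗ[ℝ] Aa r} {kl : G → G} {E : POM (YY F) K} {θ₀ : POM (ZZ F) K}
  {H H' : Subgroup G} {t : Aa r →ₗ[ℝ] X} {θ : POM (G ⧸ H') K} {ϑ : G ⧸ H → POM (G ⧸ H') K} {c : X}
  {ν : Measure (G ⧸ H)} {α η : Measure G}

theorem P_ne_of_nhds {Y : Type} [TopologicalSpace Y] [SecondCountableTopology Y]
    [MeasurableSpace Y] [BorelSpace Y] [MulAction G Y] [ContinuousSMul G Y]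
    [MulAction.IsPretransitive G Y] (S : Side μ W) {θ : POM Y K} (hθ : θ.IsP) (cov : Cov S.π θ)
    {A : Set Y} (hA : MeasurableSet A) {y : Y} (hy : A ∈ 𝓝 y) : θ.P A ≠ 0 := fun h => by
  have h1 : θ.ν S.Ω univ = 0 := measure_null_of_locally_null _ fun z _ => by
    obtain ⟨g, rfl⟩ := MulAction.exists_smul_eq G y z
    refine ⟨(fun ζ => g⁻¹ • ζ) ⁻¹' A, mem_nhdsWithin_of_mem_nhds
      ((continuous_const_smul _).continuousAt (by rwa [inv_smul_smul])), ?_⟩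
    rw [← cov.ν S g hA, (θ.P_eq_zero_iff hA).1 h]
  simp [hθ.ν_univ, S.enorm_Ω] at h1

theorem nv_union {Y : Type} [MeasurableSpace Y] {C : Cpl μ μ W} {lam : Measure G} {θ : POM Y K}
    (hθ : θ.IsP) {A B : Set Y} (hA : MeasurableSet A) (hB : MeasurableSet B) :
    nv C lam (θ.P (A ∪ B)) ≤ nv C lam (θ.P A) + nv C lam (θ.P B) := nv_le.2 fun b hb up => by
  refine le_trans ?_ (add_le_add (nv_le.1 (le_refl (nv C lam (θ.P A))) b hb up)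
    (nv_le.1 (le_refl (nv C lam (θ.P B))) b hb up))
  rw [Side.Tr, Side.Tr, Side.Tr, ← lintegral_add_left (C.t.meas_π _ _)]
  refine lintegral_mono fun g => ?_
  simp only [mul_ap, hθ.enorm_P_sq hA, hθ.enorm_P_sq hB, hθ.enorm_P_sq (hA.union hB)]
  exact measure_union_le _ _

theorem n₀_nrm (h : Fl F) (hι : ∀ x, t x = 0 → t (x ∘ F.ι) = 0) :
    F.n₀ ∈ Subgroup.normalizer (h.Zw (LinearMap.ker t) : Set G) := fun z => by
  refine ⟨fun hz => h.mem_Zw.2 ⟨(h.n₀Z z).1 hz.1, ?_⟩, fun hz => ?_⟩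
  · rw [h.ℓ_n₀B hz.2.1, LinearMap.mem_ker, map_neg, hι _ hz.2.2, neg_zero]
  · have h1 := (h.n₀Z z).2 hz.1
    have h2 := hι _ hz.2.2
    rw [h.ℓ_n₀B (h.z_mem_P h1 _), show (-(F.ℓ z ∘ F.ι)) ∘ F.ι = -F.ℓ z from funext fun i => by
      simp [h.ι_ι], map_neg, neg_eq_zero] at h2
    exact h.mem_Zw.2 ⟨h1, h2⟩

theorem exists_opp (h : Fl F) (e : F.Ht H t) (y : G ⧸ H) : ∃ y' F₁ F₂, IsCompact F₁ ∧
    IsCompact F₂ ∧ F₁ ∈ 𝓝 y' ∧ F₂ ∈ 𝓝 y ∧ F₂ ×ˢ F₁ ⊆ F.Op H H ∧ F₁ ×ˢ F₂ ⊆ F.Op H H := by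
  haveI := h.Ht_cl e
  obtain ⟨g, rfl⟩ := QuotientGroup.mk_surjective y
  have h1 : ((g : G ⧸ H), ((g * F.n₀⁻¹ : G) : G ⧸ H)) ∈ F.Op H H :=
    (h.op_mk e.le e.le _ _).2 (by simpa [mul_assoc] using h.one_mem)
  obtain ⟨U, hU, V, hV, h2⟩ := mem_nhds_prod_iff.1 ((h.isOpen_Op e.le e.le).mem_nhds h1)
  obtain ⟨U', h3, h4, h5⟩ := local_compact_nhds hU
  obtain ⟨V', h6, h7, h8⟩ := local_compact_nhds hV
  exact ⟨_, V', U', h8, h5, h6, h3, (prod_mono h4 h7).trans h2,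
    fun q hq => h.op_swap e.le e.le (h2 (mk_mem_prod (h4 hq.2) (h7 hq.1)))⟩

theorem meas_ℓ (h : Fl F) : Measurable F.ℓ :=
  FlD.cont_co.measurable.comp (measurable_pi_lambda _ fun j => (h.contΔ j).norm.measurable.log)

/-- the translates of a window cover the slabs -/
theorem onto (h : Fl F) (hL : Function.Injective L) (hp : F.Prp (t ∘ₗ L))
    (hα : Hm (h.Zw (LinearMap.ker (t ∘ₗ L))) α) (R : ℝ) : ∃ (R' : ℝ) (c : ℝ≥0∞), c ≠ 0 ∧ c ≠ ∞ ∧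
      ∀ x, ‖t x‖ ≤ R → c ≤ α {g | ‖x + L (F.ℓ g⁻¹)‖ ≤ R'} := by
  obtain ⟨Q, hQ, hs, h1⟩ := hp (R + ‖LinearMap.toContinuousLinearMap (t ∘ₗ L)‖ * F.β)
  obtain ⟨B, -, hB⟩ := h.ℓ_bdd hQ fun q hq => h.z_mem (hs hq)
  refine ⟨‖LinearMap.toContinuousLinearMap L‖ * (F.β + B + 1),
    α {z | z ∈ F.Z ∧ ∀ i, |F.ℓ z i| ≤ 1}, fun h0 => hα.pos'
    ((h.contOn_ℓ.continuousAt (h.isOpen_Ω.mem_nhds h.one_mem)).preimage_mem_nhds
      (t := Metric.closedBall 0 1) (by rw [h.ℓ_one]; exact Metric.closedBall_mem_nhds 0 one_pos))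
      (le_zero_iff.1 (le_of_le_of_eq (hα.mono
        fun g hg h2 => by exact ⟨hg.1, fun i => (norm_le_pi_norm (F.ℓ g) i).trans
          (mem_closedBall_zero_iff.1 h2)⟩) h0)),
    (hα.fin _ (h.zprop 1)).ne, fun x hx => ?_⟩
  obtain ⟨y, rfl⟩ := LinearMap.surjective_of_injective hL x
  have h2 := h.a_mem fun i => ⌊y i / F.β⌋
  have h3 : ‖y - F.ℓ (F.a fun i => ⌊y i / F.β⌋)‖ ≤ F.β :=
    (pi_norm_le_iff_of_nonneg h.β_pos.le).2 fun i => by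
      have h3 := (le_div_iff₀ h.β_pos).1 (Int.floor_le (y i / F.β))
      have h4 := (div_lt_iff₀ h.β_pos).1 (Int.lt_floor_add_one (y i / F.β))
      rw [h.ℓ_a, Pi.sub_apply, Real.norm_eq_abs, abs_le]
      constructor <;> nlinarith [h.β_pos]
  generalize F.a (fun i => ⌊y i / F.β⌋) = w at h2 h3
  obtain ⟨q, hq, h4⟩ := h1 w h2 (by
    rw [← sub_sub_cancel y (F.ℓ w), map_sub]
    exact (norm_sub_le _ _).trans (add_le_add hx (((LinearMap.toContinuousLinearMap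
      (t ∘ₗ L)).le_opNorm _).trans (mul_le_mul_of_nonneg_left h3 (norm_nonneg _)))))
  have h5 := F.Z.mul_mem (hs hq) (F.Z.inv_mem h2)
  have h6 := h.ℓ_mul (hs hq) (F.Z.inv_mem h2)
  rw [← (hα.mp_left (h.mem_Zw.2 ⟨h5, by rw [LinearMap.mem_ker, h6, h.ℓ_inv h2, map_add, map_neg, h4,
    add_neg_cancel]⟩)).measure_preimage (h.zprop 1).measurableSet.nullMeasurableSet]
  refine hα.mono fun g hg h7 => ?_
  rw [mem_setOf_eq, ← map_add, h.ℓ_inv hg.1, show y + -F.ℓ g = y - F.ℓ w + F.ℓ q -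
    F.ℓ (q * w⁻¹ * g) by rw [h.ℓ_mul h5 hg.1, h6, h.ℓ_inv h2]; abel]
  exact ((LinearMap.toContinuousLinearMap L).le_opNorm _).trans (mul_le_mul_of_nonneg_left
    (norm_sub_le_of_le (norm_add_le_of_le h3 (hB q hq))
      ((pi_norm_le_iff_of_nonneg zero_le_one).2 h7.2)) (norm_nonneg _))

/-- the input of the finiteness statements on the cones -/
structure In (F : FlD k G r) (C : Cpl μ μ W) (z : ℕ → G) (L : Aa r →ₗ[ℝ] Aa r) (E : POM (YY F) K)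
    (θ₀ : POM (ZZ F) K) (t : Aa r →ₗ[ℝ] X) (θ : POM (G ⧸ H') K) (ϑ : G ⧸ H → POM (G ⧸ H') K) (c : X)
    (ν : Measure (G ⧸ H)) : Prop where
  h : Fl F
  e : Eb F C E
  T : T0 F C z L E θ₀
  s : Sp F L
  cs : Cs F L H H' t
  x : Tx F C L E H' t θ
  f : Fm C θ ϑ
  R : RelC F L t ϑ c
  n : Nu F μ H ν

variable [FiniteDimensional ℝ X] (I : In F C z L E θ₀ t θ ϑ c ν)
include I

theorem In.hι (x : Aa r) (hx : (t ∘ₗ L) x = 0) : (t ∘ₗ L) (x ∘ F.ι) = 0 :=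
  (congrArg t (I.s.opp x)).trans (I.cs.opp _ hx)

theorem In.one {S : Set (G ⧸ H')} (hS : MeasurableSet S) : (ϑ (1 : G)).P S = θ.P S := by
  rw [POM.P, I.f.base 1 _ (bd_ind1 hS), inv_one, map_one, one_mul, mul_one, POM.P]

theorem In.lo (hα : Hm (I.h.Zw (LinearMap.ker (t ∘ₗ L))) α) {S : Set (G ⧸ H')} (hS : IsCompact S) :
    ∃ (R : ℝ) (c : ℝ≥0∞), c ≠ 0 ∧ c ≠ ∞ ∧ ∀ ξ, c * ‖θ.P S ξ‖ₑ ^ 2 ≤ ∫⁻ g, θ₀.ν (C.s.π g ξ)
      (F.dir _ Finset.univ ⁻¹' (F.dir H' Finset.univ '' S) ∩ {z | ‖F.hq _ .id z‖ ≤ R}) ∂α := by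
  borelize X
  have h := I.h
  haveI := h.Ht_cl I.cs.tgt
  haveI := h.isClosed_P Finset.univ
  obtain ⟨a, ha⟩ := (hS.image (h.cont_hq I.cs.tgt)).isBounded.exists_norm_le
  obtain ⟨R, c, c0, c1, h1⟩ := (ov0 I.T h I.cs.tgt I.x).lo (S := C.s) (sh := fun g => L (F.ℓ g))
    ⟨fun g hg φ hφ => by rw [I.x.dir φ hφ, I.e.inv.inv g hg.2.1 φ hφ], fun g hg l => by
      simpa using I.T.spd l.toLinearMap 1 g hg.2.1 _ (I.T.mem l.toLinearMap 1)⟩ hα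
    (L.continuous_of_finiteDimensional.measurable.comp (meas_ℓ h))
    (fun R => let ⟨R', c, c0, c1, h1⟩ := onto h I.s.inj I.cs.prp hα R
      ⟨R', c, c0, c1, fun z => h1 _⟩) a
  exact ⟨R, c, c0, c1, h1 _ _ (hS.image (h.cont_dir I.cs.tgt _)).measurableSet hS.measurableSet
    fun y hy => ⟨⟨y, hy, rfl⟩, ha _ ⟨y, hy, rfl⟩⟩⟩

theorem In.slab (hα : Hm (I.h.Zw (LinearMap.ker (t ∘ₗ L))) α) {F₁ F₂ : Set (G ⧸ H')}
    (c₁ : IsCompact F₁) (c₂ : IsCompact F₂) (op : F₂ ×ˢ F₁ ⊆ F.Op H' H') :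
    Slab C ν ϑ F.Up α ((1 : G) : G ⧸ H) F₁ F₂ := by
  have h := I.h
  have e := I.cs.src
  have e' := I.cs.tgt
  haveI := h.Ht_cl e
  haveI := h.Ht_cl e'
  haveI := h.Ht_cl h.Ht_N
  haveI := h.isClosed_P Finset.univ
  have := C.s.right
  have m₁ := c₁.measurableSet
  have m₂ := c₂.measurableSet
  have fix : ∀ n ∈ H, n • ((1 : G) : G ⧸ H) = ((1 : G) : G ⧸ H) := fun n hn => by
    rw [mk_smul, mul_one, eq_comm, QuotientGroup.eq, inv_one, one_mul]; exact hn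
  refine ⟨m₁, m₂, fun x => h.uni_Up, fun n hn => fix n (h.up_Ht e hn),
    hα.ae.mono fun g hg => fix g ((e g).2 hg.2), ?_⟩
  obtain ⟨R, hR⟩ := ((c₂.prod c₁).image_of_continuousOn
    ((h.contOn_dd e' I.cs.opp).mono op)).isBounded.exists_norm_le
  obtain ⟨Q, hQ, hs, h1⟩ := I.cs.prp (R + ‖c‖)
  obtain ⟨R', c, c0, c1, lo⟩ := I.lo hα c₁
  have md := h.cont_dir e' Finset.univ
  have cD := c₂.image md
  have cS := (h.cpt_hq h.Ht_N (h.prp_inj Function.injective_id) R').inter_left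
    ((c₁.image md).isClosed.preimage (h.cont_dir h.Ht_N Finset.univ))
  obtain ⟨c', c2, ds⟩ := I.T.desc _ _ cD cS (by
    rintro ⟨_, w⟩ ⟨⟨x, hx, rfl⟩, ⟨y, hy, h2⟩, -⟩
    refine (h.op_dir_right _ w le_rfl).1 ?_
    rw [← h2]
    exact (h.op_dir e' e' x y).2 (op (mk_mem_prod hx hy)))
  obtain ⟨a, ca, ha⟩ := exists_root θ₀ cS.measurableSet
  have ca := ca W (I.T.inv.cm _ (bd_ind1 cS.measurableSet))
  have cQ := hQ.image (continuous_const_mul F.n₀⁻¹)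
  obtain ⟨B, hB⟩ := mdl_bdd hα.cl cQ
  obtain ⟨η, hη⟩ := I.n.qm
  refine ⟨_, eo (-B) * c, c', cQ.image QuotientGroup.continuous_mk, mul_ne_zero (eo_ne_zero _) c0,
    ENNReal.mul_ne_top (eo_ne_top _) c1, c2,
    (h.ae_op_qm hη e.le e.le ((1 : G) : G ⧸ H)).mono fun z hz h2 => ?_, ?_⟩
  · have h3 := hR _ (not_not.1 fun h3 => h2 (by
      rw [← star_eq_zero, star_mul, star_P _ m₁, star_P _ m₂, I.R _ _ hz.1 _ _ c₂ c₁ op h3]))
    obtain ⟨u, hu, z, h5, rfl⟩ := h.op_base e.le e.le (fun _ => h.up_Ht e) hz.1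
    simp only [(h.dd_base e I.hι hu h5).2] at h3
    obtain ⟨q, hq, h4⟩ := h1 z h5 ((norm_le_add_norm_add _ _).trans (add_le_add h3 le_rfl))
    refine ⟨u, hu, _, ⟨_, ⟨q, hq, rfl⟩, rfl⟩, ?_⟩
    rw [mk_smul, ← mul_assoc]
    exact h.mk_eq e _ (h.z_mem_P h5 _) (h.z_mem_P (hs hq) _) h4.symm
  · rintro _ ⟨g, hg, rfl⟩
    have ng : g ∈ Subgroup.normalizer (h.Zw (LinearMap.ker (t ∘ₗ L)) : Set G) := by
      obtain ⟨q, hq, rfl⟩ := hg
      exact Subgroup.mul_mem _ (Subgroup.inv_mem _ (n₀_nrm h I.hι)) (h.nrm_Zw _ (hs hq))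
    have e1 : (g : G ⧸ H) = g • ((1 : G) : G ⧸ H) := by rw [mk_smul, mul_one]
    refine ⟨_, C.s.conj _ ca g, fun ξ => ?_, ?_⟩
    · have h2 := hα.lint_conj ng fun u => ‖a (C.s.π u (C.s.π g⁻¹ ξ))‖ₑ ^ 2
      rw [e1, I.f.fam.P_mov m₁, I.one m₁, mul_ap, mul_ap, C.s.enorm_π, mul_assoc]
      refine le_trans (mul_le_mul' (eo_le.2 (abs_le.1 (hB g hg ng)).1) ((lo _).trans_eq
        (lintegral_congr fun u => (ha _).symm))) (h2.ge.trans_eq (lintegral_congr fun u => ?_))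
      simp only [mul_ap, C.s.enorm_π, pi_ap, id, mul_assoc, mul_inv_cancel, mul_one]
    · have cP := I.f.fam.cm_P m₂ (g⁻¹ • ((1 : G) : G ⧸ H))
      have mD := md.measurable cD.measurableSet
      have cP' := cm_mul ca (I.f.fam.cm_P mD (g⁻¹ • ((1 : G) : G ⧸ H)))
      rw [← smul_inv_smul g ((1 : G) : G ⧸ H), I.f.fam.P_mov m₂, ← C.s.conj_mul,
        C.Tr_σ (cm_mul ca cP), ← inter_eq_right.2 (subset_preimage_image _ F₂),
        (I.f.isP _).P_inter mD m₂, ← mul_assoc]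
      refine (C.Tr_mul_le cP' cP).trans ((mul_le_of_le_one_left' (pow_le_one' (by
        rw [← ofReal_norm]
        exact ENNReal.ofReal_le_one.2 (norm_P_le _ m₂)) 2)).trans
        ((tr_le_tq C.t cP' fun η => le_of_eq ?_).trans (ds ((ϑ (g⁻¹ • ((1 : G) : G ⧸ H))).map _
          md.measurable)
          (fun φ hφ => I.f.fam.cm _ _ (hφ.comp md.measurable)) fun k φ hφ =>
            (I.f.fam.cov _ k _ (hφ.comp md.measurable)).trans (by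
              simp only [map_f, Function.comp_def, h.dir_smul e']))))
      rw [θ₀.inner_P cS.measurableSet, Complex.ofReal_re, Measure.real, ← ha, mul_ap,
        ENNReal.toReal_pow, toReal_enorm]
      rfl

theorem In.inv : SMulInvariantMeasure G (G ⧸ H) ν := ⟨fun s S hS => by
  obtain ⟨η, hη⟩ := I.n.qm
  have := C.s.right
  have hm : Measurable fun y : G ⧸ H => s • y := (continuous_const_smul s).measurable
  rw [← Measure.map_apply hm hS, hη.left hm fun g => rfl]⟩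

/-- **FV** on the cones -/
theorem In.fv : ∃ ξ, ξ ≠ 0 ∧ ∃ S ∈ 𝓝 ((1 : G) : G ⧸ H'), mm ν ϑ ξ S ≠ ∞ := by
  haveI := I.h.Ht_cl I.cs.src
  haveI := I.h.Ht_cl I.cs.tgt
  have := I.inv
  have := I.n.fin
  obtain ⟨α, hα⟩ := exists_hm (I.h.isClosed_Zw (LinearMap.ker (t ∘ₗ L)))
  have := hα.sfin
  obtain ⟨η, hη⟩ := exists_hm I.h.clUp
  obtain ⟨y, F₂, F₁, c₂, c₁, n₂, n₁, -, op⟩ := exists_opp I.h I.cs.tgt ((1 : G) : G ⧸ H')
  obtain ⟨ξ, h1, h2⟩ := (I.slab hα c₁ c₂ op).fv I.f.fam I.f.isP hη (I.h.hm_Hw hα hη)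
    (P_ne_of_nhds C.t (I.f.isP _) (I.f.fam.cov _) c₂.measurableSet n₂)
  exact ⟨ξ, h1, F₁, n₁, h2⟩

/-- **FIN** on the cones -/
theorem In.fin {ν' : Measure (G ⧸ H')} (d : D5 C ν ϑ ν') : Fn C H θ := fun η hη S hS => by
  haveI := I.h.Ht_cl I.cs.src
  haveI := I.h.Ht_cl I.cs.tgt
  have := I.n.fin
  have := d.pos'
  obtain ⟨α, hα⟩ := exists_hm (I.h.isClosed_Zw (LinearMap.ker (t ∘ₗ L)))
  have := hα.sfin
  obtain ⟨η₀, h₀⟩ := exists_hm I.h.clUp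
  obtain ⟨c, hc⟩ := (I.h.hm_Hw hα h₀).uniq (I.h.Ht_eq I.cs.src ▸ hη)
  suffices h2 : ∃ L', MeasurableSet L' ∧ S ⊆ L' ∧ nv C η (θ.P L') ≠ ∞ from
    let ⟨L', h2, h3, h4⟩ := h2
    ⟨_, h4, nv_le.1 (nv_mono (I.x.isP.norm_P_mono hS.measurableSet h2 h3))⟩
  refine hS.induction_on (p := fun L => ∃ L', MeasurableSet L' ∧ L ⊆ L' ∧
    nv C η (θ.P L') ≠ ∞) ⟨∅, .empty, subset_rfl, ?_⟩
    (fun A B h ⟨L', h2, h3, h4⟩ => ⟨L', h2, h.trans h3, h4⟩)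
    (fun A B ⟨L', h2, h3, h4⟩ ⟨L'', h5, h6, h7⟩ => ⟨_, h2.union h5, union_subset_union h3 h6,
      ne_top_of_le_ne_top (ENNReal.add_ne_top.2 ⟨h4, h7⟩) (nv_union I.x.isP h2 h5)⟩) fun y _ => ?_
  · refine ne_top_of_le_ne_top ENNReal.zero_ne_top (nv_le.2 fun b _ _ => ?_)
    rw [P_empty, zero_mul, C.t.Tr_zero]
  obtain ⟨y', F₁, F₂, c₁, c₂, n₁, n₂, op, -⟩ := exists_opp I.h I.cs.tgt y
  obtain ⟨B, hB, h2⟩ := (I.slab hα c₁ c₂ op).fin d h₀ (Measure.measure_pos_of_mem_nhds _ n₁).ne'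
  rw [I.one c₂.measurableSet] at h2
  refine ⟨F₂, mem_nhdsWithin_of_mem_nhds n₂, F₂, c₂.measurableSet, subset_rfl,
    ne_top_of_le_ne_top (ENNReal.mul_ne_top (eo_ne_top (-c)) hB) (nv_le.2 fun b hb up => ?_)⟩
  refine (le_nv hb (eo_ne_zero (-c)) (eo_ne_top (-c)) fun ξ => ?_).trans
    (mul_le_mul_right (nv_le.2 h2) _)
  have h3 := mul_le_mul_right (up ξ) (eo (-c))
  rwa [hc, lintegral_smul_measure, smul_eq_mul, ← mul_assoc, eo_neg_mul, one_mul, one_mul] at h3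

omit I in
/-- **D5I** -/
theorem d5i (g : Gr F) (p : P1 F C z L kl E) (v : Vol F z L) (T : T0 F C z L E θ₀) (s : Sp F L)
    (cs : Cs F L H H' t) (x : Tx F C L E H' t θ) (f : Fm C θ ϑ) (R : RelC F L t ϑ c)
    (n : Nu F μ H ν) : (∃ ν', D5 C ν ϑ ν') ∧ Fn C H θ := by
  have h := g.fl
  have I : In F C z L E θ₀ t θ ϑ c ν := ⟨h, p.eb, T, s, cs, x, f, R, n⟩
  haveI := h.Ht_cl cs.src
  haveI := h.Ht_cl cs.tgt
  have := I.inv
  have := C.s.right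
  obtain ⟨ξ, h0, S, hS, fv⟩ := I.fv
  obtain ⟨m, h1, h2⟩ := v.vol
  obtain ⟨q, hq, e⟩ := s.lat _ (p.dom m).1
  rw [← e] at h1 h2
  have ha := h.z_mem_P (p.dom m).1 Finset.univ
  have hb := h.z_mem_P hq Finset.univ
  have dq : F.Dom q := ⟨hq, fun i => (h1 i).le⟩
  have mq := (cont_rt (h.Ht_nrm cs.tgt hb)).measurable
  obtain ⟨η, hη⟩ := n.qm
  have := hη.openPos QuotientGroup.isOpenQuotientMap_mk
  have d := d5 f.fam f.isP (ν := ν) (fun h0 => isOpen_univ.measure_ne_zero ν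
    ⟨((1 : G) : G ⧸ H), trivial⟩ (by rw [h0]; rfl)) (r := rt H (z m)) (r' := rt H' q)
    ⟨(cont_rt (h.Ht_nrm cs.src ha)).measurable, mq, n.map _ ha, fun y A hA => by
      obtain ⟨y, rfl⟩ := QuotientGroup.mk_surjective y
      rw [rt_mk (h.Ht_nrm cs.src ha), POM.P, POM.P, f.base _ _ (bd_ind1 hA),
        f.base _ _ (bd_ind1 (mq hA)), ← C.s.conj_conj, x.mv _ ha _ hb (congrArg t e) _ (bd_ind1 hA)]
      rfl⟩
    ⟨(measurable_const_smul _).comp mq, eo_ne_top _, h.ctr_stab cs.tgt dq,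
      h.ctr_vol μ cs.tgt dq (eo_le.2 h2)⟩ (fun y hy e => C.swap.erg (S := range fun n : ℕ => q ^ n)
        (P092BL.moore_z g.hmg h hq (fun e => (h1 ⟨0, by have := g.two; omega⟩).ne' (congrFun e _))
          mem_range_self) hy (by
            rintro _ ⟨n, rfl⟩
            exact (map_pow C.t.π q n).symm ▸ Commute.pow_right e n)) h0 hS fv
  exact ⟨⟨_, d⟩, I.fin d⟩

end Vale.Agent.P092FV
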