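import Vale.Agent.P092FV.Core
import Vale.Agent.P092OM.Gau

/-!
P092 (helper44): vector valued heights. Uniqueness, tightness and the lower bound of the averages
of the limit of the windows.
-/

set_option linter.all false

open scoped InnerProductSpace ENNReal NNReal Pointwise
open MeasureTheory Filter Topology ContinuousLinearMap Set

namespace Vale.Agent.P092FV

open Vale.Agent.P092CP Vale.Agent.P092RD Vale.Agent.P092RD.POM Vale.Agent.P092MA
open Vale.Agent.P092OM (charFun_nu)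
open Vale.Agent.P092GK (Hm)
open Vale.Agent.P092.RC (Cm)

variable {K : Type} [NormedAddCommGroup K] [InnerProductSpace ℂ K] [CompleteSpace K]

section tw

variable {Y : Type} [MeasurableSpace Y] {θ θ' : POM Y K} {T : K →L[ℂ] K}

theorem tw_key {a : Y → ℝ} (ha : Bd fun y => (a y : ℂ)) (x y : K) :
    (⟪x, (T * θ.f fun y => (a y : ℂ)) y⟫_ℂ).re = (⟪x, (θ'.f (fun y => (a y : ℂ)) * T) y⟫_ℂ).re
      ↔ ∫ z, a z ∂(θ.ν (adjoint T x + y) + θ'.ν (x - T y))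
        = ∫ z, a z ∂(θ.ν (adjoint T x - y) + θ'.ν (x + T y)) := by
  have hi : ∀ (μ : Measure Y) [IsFiniteMeasure μ], Integrable a μ := fun μ _ => by
    simpa using (bd_int ha μ).re
  rw [mapp, mapp, ← adjoint_inner_left, θ.re_inner_real ha, θ'.re_inner_real ha,
    integral_add_measure (hi _) (hi _), integral_add_measure (hi _) (hi _)]
  constructor <;> intro e <;> linarith

theorem tw_iff : (∀ g, Bd g → T * θ.f g = θ'.f g * T) ↔ ∀ x y : K,
    θ.ν (adjoint T x + y) + θ'.ν (x - T y) = θ.ν (adjoint T x - y) + θ'.ν (x + T y) := by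
  have e : ∀ A : Set Y, A.indicator (1 : Y → ℂ) = fun y => ((A.indicator (1 : Y → ℝ) y : ℝ) : ℂ) :=
    fun A => by ext y; by_cases hy : y ∈ A <;> simp [hy]
  refine ⟨fun h x y => Measure.ext fun A hA => ?_, fun hm => (cls_tw θ θ' T).of_sets fun A hA => ?_⟩
  · have := (tw_key (θ := θ) (θ' := θ') (T := T) (e A ▸ bd_ind1 hA) x y).1
      (by rw [h _ (e A ▸ bd_ind1 hA)])
    rw [integral_indicator_one hA, integral_indicator_one hA] at this
    exact (measureReal_eq_measureReal_iff (measure_ne_top _ _) (measure_ne_top _ _)).1 this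
  · have hb : Bd fun y => ((A.indicator (1 : Y → ℝ) y : ℝ) : ℂ) := e A ▸ bd_ind1 hA
    rw [e]
    ext y
    refine ext_inner_left ℂ fun x => Complex.ext ((tw_key hb x y).2 (by rw [hm])) ?_
    have := (tw_key (θ := θ) (θ' := θ') (T := T) hb (Complex.I • x) y).2 (by rw [hm])
    simpa [inner_smul_left] using this

theorem exists_root (θ : POM Y K) {A : Set Y} (hA : MeasurableSet A) : ∃ a : K →L[ℂ] K,
    (∀ W, Cm W (θ.P A) → Cm W a) ∧ ∀ η, ‖a η‖ₑ ^ 2 = θ.ν η A :=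
  ⟨cfc Real.sqrt (θ.P A), fun W h => cm_cfcR h _, fun η => by
    rw [← ofReal_norm, ← ENNReal.ofReal_pow (norm_nonneg _),
      exists_sqrt (fun x => measureReal_nonneg) (θ.inner_P hA), ofReal_measureReal (nu_ne θ η A)]⟩

theorem nu_le_of_comm (θ : POM Y K) {A : Set Y} (hA : MeasurableSet A) (h1 : ‖T‖ ≤ 1)
    (h : θ.P A * T = T * θ.P A) (ξ : K) : θ.ν (T ξ) A ≤ θ.ν ξ A := by
  obtain ⟨a, h2, h3⟩ := exists_root θ hA
  rw [← h3, ← h3, ← mapp, h2 {T} (fun w hw => by rw [hw]; exact h) T rfl, mapp]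
  exact pow_le_pow_left' (enorm_le_iff_norm_le.2 ((T.le_of_opNorm_le h1 _).trans_eq (one_mul _))) 2

end tw

variable {X : Type} [NormedAddCommGroup X] [NormedSpace ℝ X] [FiniteDimensional ℝ X]
  [MeasurableSpace X] [BorelSpace X]

/-- an operator which intertwines the characters intertwines the calculi -/
theorem tw_of_dual {θ θ' : POM X K} {T : K →L[ℂ] K}
    (h : ∀ l : X →L[ℝ] ℝ, T * θ.f (ex 1 l) = θ'.f (ex 1 l) * T) :
    ∀ g, Bd g → T * θ.f g = θ'.f g * T := by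
  have := FiniteDimensional.complete ℝ X
  refine tw_iff.2 fun x y => Measure.ext_of_charFunDual (funext fun l => ?_)
  have m := l.continuous.measurable
  have := tw_iff.1 (fun g hg => tw_of_ex (θ.map l m) (θ'.map l m) T (fun t => by
    have e : ex t id ∘ l = ex 1 (t • l) := by ext z; simp [ex]
    rw [map_f, map_f, e]
    exact h _) hg) x y
  rw [charFunDual_eq_charFun_map_one, charFunDual_eq_charFun_map_one, Measure.map_add _ _ m,
    Measure.map_add _ _ m]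
  exact congrArg (fun μ => charFun μ 1) this

theorem small_mass (μ : Measure ℝ) [IsFiniteMeasure μ] {r δ : ℝ} (hr : 0 < r)
    (h : ∀ t, |t| ≤ 2 * r⁻¹ → ‖μ.real univ - charFun μ t‖ ≤ δ * μ.real univ) :
    μ.real {x | r < |x|} ≤ 2 * δ * μ.real univ := by
  rcases eq_zero_or_neZero μ with rfl | h0
  · simp
  have m : 0 < μ.real univ := measureReal_univ_pos
  have h1 := (measureReal_abs_gt_le_integral_charFun (μ := (μ univ)⁻¹ • μ) hr).trans
    (mul_le_mul_of_nonneg_left (intervalIntegral.norm_integral_le_of_norm_le_const (C := δ)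
      fun t ht => ?_) (by positivity))
  · rw [measureReal_ennreal_smul_apply, ENNReal.toReal_inv, ← Measure.real,
      abs_of_pos (by rw [sub_pos]; nlinarith [inv_pos.2 hr]),
      inv_mul_le_iff₀ m, show 2⁻¹ * r * (δ * (2 * r⁻¹ - -2 * r⁻¹)) = 2 * δ by field_simp; ring] at h1
    linarith
  · rw [uIoc_of_le (by nlinarith [inv_pos.2 hr])] at ht
    have := h t (abs_le.2 ⟨by linarith [ht.1], ht.2⟩)
    rw [charFun_apply, integral_smul_measure, ← charFun_apply, ENNReal.toReal_inv, ← Measure.real,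
      show (1 : ℂ) - (μ.real univ)⁻¹ • charFun μ t = (μ.real univ)⁻¹ • (μ.real univ - charFun μ t) by
        rw [smul_sub, Complex.real_smul (z := μ.real univ), ← Complex.ofReal_mul,
          inv_mul_cancel₀ m.ne']; rfl,
      norm_smul, norm_inv, Real.norm_of_nonneg m.le, inv_mul_le_iff₀ m]
    exact this.trans_eq (mul_comm _ _)

theorem gau_one {H H₀ : POM ℝ K} (hH : H.IsP)
    (h : ∀ t : ℝ, ∃ c : ℂ, H₀.f (ex t id) = c • H.f (ex t id)) (h0 : H₀.f 1 ≠ 0) {δ : ℝ}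
    (hδ : 0 < δ) (a : ℝ) : ∃ R : ℝ, ∀ η, (∀ᵐ x ∂H.ν η, |x| ≤ a) →
      (H₀.ν η).real {x | R < |x|} ≤ δ * (H₀.ν η).real univ := by
  choose c hc using h
  have e : ∀ ξ t, charFun (H₀.ν ξ) t = c t * charFun (H.ν ξ) t := fun ξ t => by
    rw [charFun_nu, charFun_nu, hc, ContinuousLinearMap.smul_apply, inner_smul_right]
  have n : ∀ ξ, (H.ν ξ).real univ = ‖ξ‖ ^ 2 := fun ξ => by simp [Measure.real, hH.ν_univ]
  obtain ⟨ξ, hξ⟩ : ∃ ξ, H₀.ν ξ univ ≠ 0 := by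
    by_contra a
    exact h0 (H₀.P_univ ▸ (H₀.P_eq_zero_iff .univ).2 fun ξ => not_not.1 fun b => a ⟨ξ, b⟩)
  have h1 : c 0 * charFun (H.ν ξ) 0 ≠ 0 := by
    rw [← e, charFun_zero]
    exact Complex.ofReal_ne_zero.2 ((measureReal_eq_zero_iff (measure_ne_top _ _)).not.2 hξ)
  have h2 : ContinuousAt c 0 :=
    (continuous_charFun.continuousAt.div continuous_charFun.continuousAt
      (right_ne_zero_of_mul h1)).congr ((continuous_charFun.continuousAt.eventually_ne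
        (right_ne_zero_of_mul h1)).mono fun t a => by
          rw [Pi.div_apply, e, mul_div_cancel_right₀ _ a])
  have κ : 0 < ‖c 0‖ := norm_pos_iff.2 (left_ne_zero_of_mul h1)
  obtain ⟨d, d0, hd⟩ := Metric.eventually_nhds_iff.1 ((h2.eventually (Metric.closedBall_mem_nhds _
    (show 0 < ‖c 0‖ * (δ / 4) by positivity))).and (((continuous_abs.mul continuous_const).tendsto'
      0 0 (by simp)).eventually_le_const (show (0 : ℝ) < δ / 4 by positivity) :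
        ∀ᶠ t : ℝ in 𝓝 0, |t| * a ≤ δ / 4))
  refine ⟨4 / d, fun η hη => ?_⟩
  have m := congrArg norm (e η 0)
  rw [charFun_zero, charFun_zero, norm_mul, n, Complex.norm_real, Complex.norm_real,
    Real.norm_of_nonneg measureReal_nonneg, Real.norm_of_nonneg (sq_nonneg _)] at m
  refine (small_mass _ (δ := δ / 2) (by positivity) fun t ht => ?_).trans_eq (by ring)
  obtain ⟨b1, b2⟩ := hd (y := t) (by rw [Real.dist_eq, sub_zero]; rw [inv_div] at ht; linarith)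
  have b3 : ‖charFun (H.ν η) t - charFun (H.ν η) 0‖ ≤ δ / 4 * ‖η‖ ^ 2 := by
    rw [charFun_apply_real, charFun_apply_real, ← n]
    refine (congrArg norm (integral_sub (bd_int (bd_ex t measurable_id) _)
      (bd_int (bd_ex 0 measurable_id) _))).ge.trans (norm_integral_le_of_norm_le_const
        (hη.mono fun x hx => ?_))
    have := Real.norm_exp_I_mul_ofReal_sub_one_le (x := t * x)
    rw [Real.norm_eq_abs, abs_mul, mul_comm Complex.I] at this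
    refine le_trans (le_of_eq ?_)
      (this.trans ((mul_le_mul_of_nonneg_left hx (abs_nonneg t)).trans b2))
    simp [ex]
  have b4 := (norm_charFun_le (μ := H.ν η) t).trans_eq (n _)
  rw [← charFun_zero, e, e, m, norm_sub_rev, show ∀ x y z u : ℂ, x * y - z * u = (x - z) * y +
    z * (y - u) from fun x y z u => by ring]
  refine (norm_add_le_of_le ((norm_mul_le _ _).trans (mul_le_mul (mem_closedBall_iff_norm.1 b1) b4
    (norm_nonneg _) (by positivity))) ((norm_mul_le _ _).trans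
      (mul_le_mul_of_nonneg_left b3 κ.le))).trans_eq (by ring)

/-- **GAU** for vector valued heights -/
theorem gau_vec {H H₀ : POM X K} (hH : H.IsP)
    (h : ∀ (l : X →L[ℝ] ℝ) (t : ℝ), ∃ c : ℂ, H₀.f (ex t l) = c • H.f (ex t l)) (h0 : H₀.f 1 ≠ 0) :
    ∃ ε : ℝ≥0∞, ε ≠ 0 ∧ ε ≠ ∞ ∧ ∀ a : ℝ, ∃ R : ℝ, ∀ η, (∀ᵐ x ∂H.ν η, ‖x‖ ≤ a) →
      ε * ‖η‖ₑ ^ 2 ≤ H₀.ν η {x | ‖x‖ ≤ R} := by
  obtain ⟨c, hc⟩ := h 0 0
  have e0 : ex 0 (0 : X →L[ℝ] ℝ) = 1 := by ext; simp [ex]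
  rw [e0, hH.one] at hc
  have c0 : 0 < ‖c‖ := norm_pos_iff.2 fun e => h0 (by rw [hc, e, zero_smul])
  have n : ∀ η, (H₀.ν η).real univ = ‖c‖ * ‖η‖ ^ 2 := fun η => by
    have := congrArg norm (H₀.inner_P .univ η)
    rw [H₀.P_univ, hc, smul_apply, oapp, inner_smul_right, norm_mul, Complex.norm_real,
      Real.norm_of_nonneg measureReal_nonneg, inner_self_eq_norm_sq_to_K] at this
    simpa using this.symm
  refine ⟨.ofReal (‖c‖ / 2), by simpa using c0, ENNReal.ofReal_ne_top, fun a => ?_⟩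
  let e := (Module.finBasis ℝ X).equivFunL
  let l : Fin (Module.finrank ℝ X) → X →L[ℝ] ℝ := fun j =>
    (proj (φ := fun _ => ℝ) j).comp (e : X →L[ℝ] (Fin (Module.finrank ℝ X) → ℝ))
  let e' : (Fin (Module.finrank ℝ X) → ℝ) →L[ℝ] X := e.symm
  have m := fun j => (l j).continuous.measurable
  have d0 : (0 : ℝ) < (2 * (Module.finrank ℝ X + 1 : ℝ))⁻¹ := by positivity
  choose R hR using fun j => gau_one (H₀ := H₀.map _ (m j)) (hH.map (m j)) (h (l j)) h0 d0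
    (‖l j‖ * a)
  refine ⟨‖e'‖ * ‖R‖, fun η hη => ?_⟩
  have mS : MeasurableSet {x : X | ‖x‖ ≤ ‖e'‖ * ‖R‖} :=
    measurableSet_le measurable_norm measurable_const
  have h1 : (H₀.ν η).real {x : X | ‖x‖ ≤ ‖e'‖ * ‖R‖}ᶜ ≤
      ∑ j, (H₀.ν η).real (l j ⁻¹' {x | R j < |x|}) := by
    refine le_trans (measureReal_mono fun x hx => ?_) (measureReal_iUnion_fintype_le _)
    by_contra h2
    refine hx ?_
    simp only [mem_iUnion, mem_preimage, mem_setOf_eq, not_exists, not_lt] at h2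
    calc ‖x‖ = ‖e' (e x)‖ := by simp [e']
      _ ≤ _ := (le_opNorm _ _).trans (mul_le_mul_of_nonneg_left ((pi_norm_le_iff_of_nonneg
        (norm_nonneg _)).2 fun j => (h2 j).trans ((le_abs_self _).trans (norm_le_pi_norm R j)))
          (norm_nonneg _))
  have h2 : ∀ j, (H₀.ν η).real (l j ⁻¹' {x | R j < |x|}) ≤
      (2 * (Module.finrank ℝ X + 1 : ℝ))⁻¹ * (‖c‖ * ‖η‖ ^ 2) := fun j => by
    have := hR j η ((ae_map_iff (m j).aemeasurable
      (measurableSet_le measurable_abs measurable_const)).2 (hη.mono fun x hx =>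
        ((l j).le_opNorm x).trans (mul_le_mul_of_nonneg_left hx (norm_nonneg _))))
    rw [← n]
    exact (map_measureReal_apply (m j) (measurableSet_lt measurable_const measurable_abs)).ge.trans
      (this.trans_eq (congrArg _ (map_measureReal_apply (m j) .univ)))
  have h3 := h1.trans (Finset.sum_le_sum fun j _ => h2 j)
  rw [measureReal_compl mS, n, Finset.sum_const, Finset.card_univ, Fintype.card_fin,
    nsmul_eq_mul, ← mul_assoc] at h3
  have h4 : (Module.finrank ℝ X : ℝ) * (2 * (Module.finrank ℝ X + 1 : ℝ))⁻¹ ≤ 2⁻¹ := by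
    rw [← div_eq_mul_inv, div_le_iff₀ (by positivity)]
    linarith
  rw [← ofReal_norm, ← ENNReal.ofReal_pow (norm_nonneg _), ← ENNReal.ofReal_mul (half_pos c0).le,
    ← ofReal_measureReal (nu_ne _ _ _)]
  refine ENNReal.ofReal_le_ofReal ?_
  nlinarith [mul_le_mul_of_nonneg_right h4 (mul_nonneg c0.le (sq_nonneg ‖η‖))]

variable {G : Type} [Group G] [TopologicalSpace G] [IsTopologicalGroup G]
  [LocallyCompactSpace G] [SecondCountableTopology G] [T2Space G] [MeasurableSpace G] [BorelSpace G]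
  {μ : Measure G} [μ.IsHaarMeasure] {W : Set (K →L[ℂ] K)}
  {X₀ : Type} [NormedAddCommGroup X₀] [NormedSpace ℝ X₀] [FiniteDimensional ℝ X₀]
  [MeasurableSpace X₀] [BorelSpace X₀] {B Y Z : Type} [MeasurableSpace B] [MeasurableSpace Y]
  [MeasurableSpace Z] {θ : POM Y K} {θ₀ : POM Z K} {dir : Y → B} {dir₀ : Z → B} {ht : Y → X}
  {ht₀ : Z → X₀} {t : X₀ →L[ℝ] X}

/-- `θ₀` on the full cone lies over the projection valued measure `θ` -/
structure Ov (θ : POM Y K) (θ₀ : POM Z K) (dir : Y → B) (dir₀ : Z → B) (ht : Y → X)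
    (ht₀ : Z → X₀) (t : X₀ →L[ℝ] X) : Prop where
  isP : θ.IsP
  md : Measurable dir
  md₀ : Measurable dir₀
  mh : Measurable ht
  mh₀ : Measurable ht₀
  ne : θ₀.f 1 ≠ 0
  mod : ∀ φ F, Bd φ → Bd F → θ₀.f (φ ∘ dir₀ * F) = θ.f (φ ∘ dir) * θ₀.f F
  gen : ∀ (l : X →L[ℝ] ℝ) (s : ℝ), ∃ c : ℂ,
    θ₀.f (ex s fun z => l (t (ht₀ z))) = c • θ.f (ex s fun y => l (ht y))

theorem Ov.P (h : Ov θ θ₀ dir dir₀ ht ht₀ t) {D : Set B} (hD : MeasurableSet D) {A : Set Z}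
    (hA : MeasurableSet A) : θ₀.P (dir₀ ⁻¹' D ∩ A) = θ.P (dir ⁻¹' D) * θ₀.P A := by
  rw [POM.P, inter_indicator_one]
  exact h.mod _ _ (bd_ind1 hD) (bd_ind1 hA)

theorem Ov.low (h : Ov θ θ₀ dir dir₀ ht ht₀ t) : ∃ ε : ℝ≥0∞, ε ≠ 0 ∧ ε ≠ ∞ ∧ ∀ a : ℝ, ∃ R : ℝ,
    ∀ D F, MeasurableSet D → MeasurableSet F → (∀ y ∈ F, dir y ∈ D ∧ ‖ht y‖ ≤ a) → ∀ ξ,
      ε * ‖θ.P F ξ‖ₑ ^ 2 ≤ θ₀.ν ξ (dir₀ ⁻¹' D ∩ {z | ‖t (ht₀ z)‖ ≤ R}) := by
  have m := t.continuous.measurable.comp h.mh₀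
  obtain ⟨ε, e0, e1, h1⟩ := gau_vec (H₀ := θ₀.map _ m) (h.isP.map h.mh) h.gen h.ne
  refine ⟨ε, e0, e1, fun a => (h1 a).imp fun R hR D F hD hF sub ξ => ?_⟩
  have mR : MeasurableSet {x : X | ‖x‖ ≤ R} := measurableSet_le measurable_norm measurable_const
  have h2 : θ.P F * θ₀.P {z | ‖t (ht₀ z)‖ ≤ R} = θ₀.P {z | ‖t (ht₀ z)‖ ≤ R} * θ.P F :=
    tw_of_dual (θ := θ₀.map _ m) (θ' := θ₀.map _ m) (fun l => by
      obtain ⟨c, hc⟩ := h.gen l 1
      refine (congrArg (_ * ·) hc).trans (Eq.trans ?_ (congrArg (· * _) hc).symm)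
      rw [mul_smul_comm, smul_mul_assoc]
      exact congrArg _ (h.isP.comm (bd_ind1 hF) (bd_ex 1 (l.continuous.measurable.comp h.mh)))) _
        (bd_ind1 mR)
  have h3 : θ.P (dir ⁻¹' D) * θ.P F = θ.P F := by
    rw [← h.isP.P_inter (h.md hD) hF,
      inter_eq_right.2 (show F ⊆ dir ⁻¹' D from fun y hy => (sub y hy).1)]
  have h4 : θ.P F * θ.P (dir ⁻¹' D) = θ.P F := by
    rw [← h.isP.P_inter hF (h.md hD),
      inter_eq_left.2 (show F ⊆ dir ⁻¹' D from fun y hy => (sub y hy).1)]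
  have mA := (h.md₀ hD).inter (m mR)
  refine le_trans ?_ (nu_le_of_comm θ₀ mA (θ.norm_P_le hF) (by
    refine (congrArg (· * _) (h.P hD (m mR))).trans (Eq.trans ?_ (congrArg (_ * ·)
      (h.P hD (m mR))).symm)
    rw [mul_assoc, ← mul_assoc (θ.P F), h4]
    exact (congrArg (_ * ·) h2.symm).trans (by rw [← mul_assoc, h3]; rfl)) ξ)
  refine (hR _ ((ae_map_iff h.mh.aemeasurable (measurableSet_le measurable_norm
    measurable_const)).2 ?_)).trans (le_of_eq ?_)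
  · rw [h.isP.ν_P hF]
    exact ae_restrict_of_forall_mem hF fun y hy => (sub y hy).2
  · refine (Measure.map_apply m mR).trans ?_
    rw [nu_eq _ (m mR), nu_eq _ mA, h.P hD (m mR), mapp, ← θ.inner_P_left (h.md hD), ← mapp (θ.P _)
      (θ.P F), h3]

/-- `A` translates the heights of `θ₀` by `sh` -/
structure Sh (S : Side μ W) (A : Subgroup G) (θ : POM Y K) (θ₀ : POM Z K) (dir : Y → B)
    (ht₀ : Z → X₀) (sh : G → X₀) : Prop where
  fix : ∀ z ∈ A, ∀ φ, Bd φ → S.π z * θ.f (φ ∘ dir) * S.π z⁻¹ = θ.f (φ ∘ dir)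
  mov : ∀ z ∈ A, ∀ l : X₀ →L[ℝ] ℝ, S.π z * θ₀.f (ex 1 fun y => l (ht₀ y)) * S.π z⁻¹ =
    Complex.exp (l (sh z) * Complex.I) • θ₀.f (ex 1 fun y => l (ht₀ y))

variable {S : Side μ W} {A : Subgroup G} {sh : G → X₀} {α : Measure G}

theorem Sh.f (s : Sh S A θ θ₀ dir ht₀ sh) (mh : Measurable ht₀) {z : G} (hz : z ∈ A) {g : X₀ → ℂ}
    (hg : Bd g) : S.π z * θ₀.f (g ∘ ht₀) * S.π z⁻¹ = θ₀.f (g ∘ fun y => ht₀ y + sh z) := by
  have := tw_of_dual (θ := θ₀.map _ mh) (θ' := θ₀.map _ (mh.add_const (sh z))) (T := S.π z)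
    (fun l => by
      have e : ex 1 l ∘ (fun y => ht₀ y + sh z) =
          Complex.exp (l (sh z) * Complex.I) • ex 1 fun y => l (ht₀ y) := by
        ext y
        simp [ex, mul_add, Complex.exp_add, mul_comm]
      have b : Bd (ex 1 fun y => l (ht₀ y)) := bd_ex 1 (l.continuous.measurable.comp mh)
      rw [map_f, map_f, e, θ₀.smul _ b, ← s.mov z hz l,
        mul_assoc, pi_inv_mul, mul_one]
      rfl) g hg
  rw [map_f, map_f] at this
  rw [this, mul_assoc, pi_mul_inv, mul_one]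

/-- **the lower bound of the averages** -/
theorem Ov.lo (h : Ov θ θ₀ dir dir₀ ht ht₀ t) (s : Sh S A θ θ₀ dir ht₀ sh) (hα : Hm A α)
    (msh : Measurable sh) (cov : ∀ R : ℝ, ∃ (R' : ℝ) (c : ℝ≥0∞), c ≠ 0 ∧ c ≠ ∞ ∧
      ∀ z, ‖t (ht₀ z)‖ ≤ R → c ≤ α {g | ‖ht₀ z + sh g⁻¹‖ ≤ R'}) (a : ℝ) :
    ∃ (R : ℝ) (c : ℝ≥0∞), c ≠ 0 ∧ c ≠ ∞ ∧ ∀ D F, MeasurableSet D → MeasurableSet F →
      (∀ y ∈ F, dir y ∈ D ∧ ‖ht y‖ ≤ a) → ∀ ξ, c * ‖θ.P F ξ‖ₑ ^ 2 ≤
        ∫⁻ g, θ₀.ν (S.π g ξ) (dir₀ ⁻¹' D ∩ {z | ‖ht₀ z‖ ≤ R}) ∂α := by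
  have := hα.sfin
  obtain ⟨ε, e0, e1, h1⟩ := h.low
  obtain ⟨R, hR⟩ := h1 a
  obtain ⟨R', c, c0, c1, hc⟩ := cov R
  refine ⟨R', c * ε, mul_ne_zero c0 e0, ENNReal.mul_ne_top c1 e1, fun D F hD hF sub ξ => ?_⟩
  have mR : MeasurableSet {x : X₀ | ‖x‖ ≤ R'} := measurableSet_le measurable_norm measurable_const
  have mA : MeasurableSet {p : G × Z | dir₀ p.2 ∈ D ∧ ‖ht₀ p.2 + sh p.1⁻¹‖ ≤ R'} :=
    ((h.md₀.comp measurable_snd) hD).inter (((h.mh₀.comp measurable_snd).add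
      (msh.comp measurable_fst.inv)) mR)
  have e : ∀ g ∈ A, θ₀.ν (S.π g ξ) (dir₀ ⁻¹' D ∩ {z | ‖ht₀ z‖ ≤ R'}) =
      θ₀.ν ξ (Prod.mk g ⁻¹' {p : G × Z | dir₀ p.2 ∈ D ∧ ‖ht₀ p.2 + sh p.1⁻¹‖ ≤ R'}) := fun g hg => by
    have h2 := (h.mh₀.add_const (sh g⁻¹)) mR
    refine Eq.trans (by rw [inv_inv]; rfl) (nu_conj (θ := θ₀) (θ' := θ₀)
      ((h.md₀ hD).inter (h.mh₀ mR)) ((h.md₀ hD).inter h2)
      (u := S.π g⁻¹) (v := S.π g⁻¹⁻¹) (S.star_π _) ?_ ξ).symm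
    rw [h.P hD h2, h.P hD (h.mh₀ mR), S.conj_mul]
    exact congrArg₂ (· * ·) (s.fix _ (A.inv_mem hg) _ (bd_ind1 hD)).symm
      (s.f h.mh₀ (A.inv_mem hg) (bd_ind1 mR)).symm
  rw [lintegral_congr_ae (hα.ae.mono e), ← Measure.prod_apply mA, Measure.prod_apply_symm mA,
    mul_assoc]
  have mD := (h.md₀ hD).inter ((t.continuous.measurable.comp h.mh₀)
    (measurableSet_le measurable_norm (measurable_const (a := R))))
  refine (mul_le_mul_right (hR D F hD hF sub ξ) _).trans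
    ((lintegral_indicator_const mD c).ge.trans (lintegral_mono fun z => ?_))
  by_cases hz : z ∈ dir₀ ⁻¹' D ∩ (t ∘ ht₀) ⁻¹' {x | ‖x‖ ≤ R}
  · rw [indicator_of_mem hz]
    exact (hc z hz.2).trans (measure_mono fun g hg => ⟨hz.1, hg⟩)
  · rw [indicator_of_notMem hz]; exact zero_le

/-- an operator which commutes with the directions and the characters commutes with `θ₀` -/
theorem Ov.comm [MeasurableSingletonClass B] (h : Ov θ θ₀ dir dir₀ ht ht₀ t) {T : K →L[ℂ] K}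
    (h1 : ∀ φ, Bd φ → T * θ.f (φ ∘ dir) = θ.f (φ ∘ dir) * T)
    (h2 : ∀ l : X₀ →L[ℝ] ℝ, T * θ₀.f (ex 1 fun y => l (ht₀ y)) = θ₀.f (ex 1 fun y => l (ht₀ y)) * T)
    {g : B × X₀ → ℂ} (hg : Bd g) : T * θ₀.f (g ∘ fun z => (dir₀ z, ht₀ z)) =
      θ₀.f (g ∘ fun z => (dir₀ z, ht₀ z)) * T := by
  have h3 := tw_of_dual (θ := θ₀.map _ h.mh₀) (θ' := θ₀.map _ h.mh₀) h2
  refine (cls_comm (θ₀.map _ (h.md₀.prodMk h.mh₀)) T).of_pi generateFrom_prod.symm isPiSystem_prod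
    (h3 1 Bd.one) ?_ g hg
  rintro _ ⟨D, hD, J, hJ, rfl⟩
  change T * θ₀.P (dir₀ ⁻¹' D ∩ ht₀ ⁻¹' J) = θ₀.P (dir₀ ⁻¹' D ∩ ht₀ ⁻¹' J) * T
  rw [h.P hD (h.mh₀ hJ), ← mul_assoc, mul_assoc _ _ T]
  exact (congrArg (· * _) (h1 _ (bd_ind1 hD))).trans
    ((mul_assoc _ _ _).trans (congrArg (_ * ·) (h3 _ (bd_ind1 hJ))))

end Vale.Agent.P092FV
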