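import Vale.Agent.P092FV.Rad
import Vale.Agent.P092FV.Gau
import Vale.Agent.P092GK.LiftR

/-!
P092, higher rank (helper44): the limit of the windows commutes with the heights.
-/

set_option linter.all false

open scoped InnerProductSpace ENNReal NNReal
open MeasureTheory Filter Topology ContinuousLinearMap Set

namespace Vale.Agent.P092FV

open Vale.Agent.P092CP Vale.Agent.P092RD Vale.Agent.P092GK Vale.Agent.P092TH Vale.Agent.P092HR
open Vale.Agent.P092.RC (Cm Moore)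
open Vale.Agent.P092RD.POM (ex bd_ex)

variable {k : Type} [NontriviallyNormedField k] [ProperSpace k] {G K : Type} [Group G]
  [TopologicalSpace G] [IsTopologicalGroup G] [LocallyCompactSpace G] [SecondCountableTopology G]
  [T2Space G] [MeasurableSpace G] [BorelSpace G] [NormedAddCommGroup K] [InnerProductSpace ℂ K]
  [CompleteSpace K] {μ : Measure G} [μ.IsHaarMeasure] {W : Set (K →L[ℂ] K)} {r : ℕ}
  {X : Type} [NormedAddCommGroup X] [NormedSpace ℝ X] {F : FlD k G r} {C : Cpl μ μ W} {z : ℕ → G}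
  {L : Aa r →ₗ[ℝ] Aa r} {E : POM (YY F) K} {θ₀ : POM (ZZ F) K}
  {H H' : Subgroup G} {t : Aa r →ₗ[ℝ] X} {θ : POM (G ⧸ H') K} {A : Aa r → G}

theorem gen0 (T : T0 F C z L E θ₀) {τ : Aa r →ₗ[ℝ] ℝ} {s : ℝ} {a b : K →L[ℂ] K}
    (ha : a ∈ Xt F C E τ s) (hb : b ∈ Xt F C E τ s) (h0 : b ≠ 0) : ∃ c : ℂ, a = c • b := by
  obtain ⟨u, -, hu⟩ := T.uni τ
  obtain ⟨c, rfl⟩ := (hu s).2 a ha
  obtain ⟨d, rfl⟩ := (hu s).2 b hb
  exact ⟨c / d, by rw [smul_smul, div_mul_cancel₀ _ (left_ne_zero_of_smul h0)]⟩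

theorem ex_ne {Y : Type} [MeasurableSpace Y] {θ : POM Y K} (C : Cpl μ μ W) (h : θ.IsP) {D : Y → ℝ}
    (hD : Measurable D) (s : ℝ) : θ.f (ex s D) ≠ 0 := fun e => by
  have := (P092SB.op_ex h hD).norm s C.s.Ω
  simp [e, C.s.nΩ] at this

theorem ov0 [FiniteDimensional ℝ X] [MeasurableSpace X] [BorelSpace X] (T : T0 F C z L E θ₀)
    (h : Fl F) (e : F.Ht H' t) (x : Tx F C L E H' t θ) :
    Ov θ θ₀ (F.dir H' Finset.univ) (F.dir _ Finset.univ) (F.hq H' t) (F.hq _ .id)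
      (LinearMap.toContinuousLinearMap t) where
  isP := x.isP
  md := (h.cont_dir e _).measurable
  md₀ := (h.cont_dir h.Ht_N _).measurable
  mh := (h.cont_hq e).measurable
  mh₀ := (h.cont_hq h.Ht_N).measurable
  ne := T.ne
  mod φ f h1 h2 := by rw [T.mod φ f h1 h2, x.dir φ h1]
  gen l s := gen0 T (T.mem (l.toLinearMap ∘ₗ t) s) (x.mem l.toLinearMap s)
    (ex_ne C x.isP (l.continuous.comp (h.cont_hq e)).measurable s)

theorem rad0 [FiniteDimensional ℝ X] (T : T0 F C z L E θ₀) (h : Fl F) (e : F.Ht H' t)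
    (x : Tx F C L E H' t θ) (h2 : ∀ (τ : Aa r →ₗ[ℝ] ℝ), ∀ a ∈ Xt F C E τ 1, ∀ f, Bd f →
      a * θ.f f = θ.f f * a) : Rad θ₀ θ := fun f f' hf hf' => by
  borelize X
  haveI := h.isClosed_P Finset.univ
  haveI := h.Ht_cl h.Ht_N
  have hc := (h.cont_dir h.Ht_N Finset.univ).prodMk (h.cont_hq h.Ht_N)
  have hi : Function.Injective fun y : ZZ F => (F.dir _ Finset.univ y, F.hq _ .id y) :=
    fun y y' e' => h.cone_ext h.Ht_N (congrArg Prod.fst e') (congrArg Prod.snd e')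
  have hm := (IsClosedEmbedding.of_continuous_injective_isClosedMap hc hi
    (isProperMap_iff_isCompact_preimage.2 ⟨hc, fun Q hQ => by
      obtain ⟨R, hR⟩ := (hQ.image continuous_snd).isBounded.exists_norm_le
      exact (h.cpt_hq h.Ht_N (h.prp_inj Function.injective_id) R).of_isClosed_subset
        (hQ.isClosed.preimage hc) fun y hy => hR _ ⟨_, hy, rfl⟩⟩).isClosedMap).measurableEmbedding
  obtain ⟨B, hB⟩ := hf.bdd
  have := (ov0 T h e x).comm (fun φ hφ => x.isP.comm hf' (hφ.comp (h.cont_dir e _).measurable))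
    (fun l => (h2 _ _ (T.mem l.toLinearMap 1) _ hf').symm)
    (g := Function.extend (fun y : ZZ F => (F.dir _ Finset.univ y, F.hq _ .id y)) f 0)
    ⟨hm.measurable_extend hf.meas measurable_zero, |B|, fun y => by
      classical
      rw [Function.extend_def]
      split_ifs
      · exact (hB _).trans (le_abs_self B)
      · simp⟩
  rw [Function.extend_comp hi] at this
  exact this.symm

/-- **RAD** on the full cone -/
theorem rad_td (g : Gr F) (e : Eb F C E) (T : T0 F C z L E θ₀) {θ : POM (ZZ F) K}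
    (x : Tx F C L E (NN F) .id θ) : Rad θ₀ θ :=
  rad0 T g.fl g.fl.Ht_N x fun τ a ha f hf => by
    have m := (τ.continuous_of_finiteDimensional.comp (g.fl.cont_hq g.fl.Ht_N)).measurable
    obtain ⟨c, rfl⟩ := gen0 T ha (x.mem τ 1) (ex_ne C x.isP m 1)
    rw [smul_mul_assoc, mul_smul_comm]
    exact congrArg _ (x.isP.comm (bd_ex 1 m) hf)

theorem ρ_cb (g : Gr F) (μ : Measure G) [μ.IsHaarMeasure] [μ.IsMulRightInvariant] :
    0 < F.ρ (F.ℓ (F.cb Finset.univ)) := by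
  have i : Fin r := ⟨0, by have := g.two; omega⟩
  obtain ⟨c, hc, h⟩ := g.fl.le_ρ μ
  exact pos_of_mul_pos_right ((g.fl.ℓ_cb_pos (Finset.mem_univ i)).trans_le
    (h _ (g.fl.cb_dom _).2 i)) (by linarith)

/-- **RAD** on the cone of `ρ` -/
theorem rad_r (g : Gr F) (hA : Tor F A) (e : Eb F C E) (T : T0 F C z L E θ₀) (s : Sp F L)
    {t : Aa r →ₗ[ℝ] ℝ} {θ : POM (G ⧸ H') K} (cs : Cs F L H H' t) (x : Tx F C L E H' t θ)
    (f : Fn C H θ) (hρ : ∀ x, t (L x) = F.ρ x) : Rad θ₀ θ := by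
  have h := g.fl
  have := C.s.right
  have h0 := ρ_cb g μ
  have hq := h.z_mem_P (h.cb_mem Finset.univ) Finset.univ
  have nr : ∀ p ∈ PP F, Nrm C F.Up E p := fun p hp => ⟨fun u hu => by
    simpa using (h.nrm_Up ((PP F).inv_mem hp) u).1 hu, e.inv.inv p hp⟩
  obtain ⟨η, hη⟩ := exists_hm (h.Ht_cl cs.src)
  have hs := hA.surj_t (t := t) fun y => ⟨(y / F.ρ (F.ℓ (F.cb Finset.univ))) • L (F.ℓ (F.cb
    Finset.univ)), by rw [map_smul, hρ, smul_eq_mul, div_mul_cancel₀ _ h0.ne']⟩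
  have m := (h.cont_hq cs.tgt).measurable
  refine rad0 T h cs.tgt x fun τ a ha => rad (c := h.cn cs.tgt cs.prp' hs) g.moore_up
    ⟨x.isP, x.inv, x.dir, x.mem .id, fun s a ha => gen0 T ha (x.mem .id s) (ex_ne C x.isP m s)⟩
    e.isP hη (fun p hp => nr p (cs.src.le hp)) (h.Ht_nrm cs.src hq)
    (by rwa [h.mdl_Ht cs.src hq]) (nr _ hq) .univ ?_ (fun R => ?_)
    (fun k => bd_ex 1 (τ.continuous_of_finiteDimensional.comp
      (h.cont_cc.comp (Continuous.prodMk_right k⁻¹))).measurable)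
    (fun k y => by simp [ex, Complex.norm_exp]) ha
  · have := Cn.nontriv C.s
    rw [E.P_univ, e.isP.one]
    exact one_ne_zero
  · obtain ⟨c, hc, h1⟩ := f η hη _ (h.cpt_hq cs.tgt cs.prp' R)
    refine ne_top_of_le_ne_top hc (nv_le.2 ?_)
    simp only [mem_univ, true_and]
    exact h1

end Vale.Agent.P092FV
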