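import Vale.Agent.P092FV.Core
import Vale.Agent.P092TH.Hts

/-!
P092 (helper44): the trace per unit volume, and the commutation of the heights.
-/

set_option linter.all false

open scoped InnerProductSpace ENNReal NNReal Pointwise
open MeasureTheory Filter Topology ContinuousLinearMap Set

namespace Vale.Agent.P092FV

open Vale.Agent.P092CP Vale.Agent.P092RD Vale.Agent.P092RE Vale.Agent.P092TH Vale.Agent.P092RD.POM
open Vale.Agent.P092GK (Hm mdl eo eo_zero eo_le eo_ne_zero eo_ne_top mdl_inv)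
open Vale.Agent.P092.RC (Cm Moore)

variable {G G' K : Type} [Group G] [TopologicalSpace G] [IsTopologicalGroup G]
  [LocallyCompactSpace G] [SecondCountableTopology G] [T2Space G] [MeasurableSpace G] [BorelSpace G]
  [Group G'] [TopologicalSpace G'] [IsTopologicalGroup G'] [LocallyCompactSpace G']
  [SecondCountableTopology G'] [T2Space G'] [MeasurableSpace G'] [BorelSpace G']
  [NormedAddCommGroup K] [InnerProductSpace ℂ K] [CompleteSpace K] {μ : Measure G}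
  [μ.IsHaarMeasure] {μ' : Measure G'} [μ'.IsHaarMeasure] {W : Set (K →L[ℂ] K)}
  {H : Subgroup G} {lam : Measure G} {C : Cpl μ μ' W} {T T' b u : K →L[ℂ] K}

/-- the trace of `T* T` per unit volume -/
noncomputable def nv (C : Cpl μ μ' W) (lam : Measure G) (T : K →L[ℂ] K) : ℝ≥0∞ :=
  ⨆ (b : K →L[ℂ] K) (_ : Cm W b) (_ : Up C.s lam (fun g => g⁻¹) b 1), C.t.Tr (T * adjoint b)

theorem nv_le {k : ℝ≥0∞} : nv C lam T ≤ k ↔
    ∀ b, Cm W b → Up C.s lam (fun g => g⁻¹) b 1 → C.t.Tr (T * adjoint b) ≤ k := by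
  simp only [nv, iSup_le_iff]

theorem le_nv (hb : Cm W b) {k : ℝ≥0∞} (h0 : k ≠ 0) (h1 : k ≠ ∞)
    (up : Up C.s lam (fun g => g⁻¹) b k) : C.t.Tr (T * adjoint b) ≤ k * nv C lam T := by
  have e : ‖(((√k.toReal)⁻¹ : ℝ) : ℂ)‖ₑ ^ 2 = k⁻¹ := by
    rw [← ofReal_norm, ← ENNReal.ofReal_pow (norm_nonneg _), Complex.norm_real, Real.norm_eq_abs,
      sq_abs, inv_pow, Real.sq_sqrt ENNReal.toReal_nonneg,
      ENNReal.ofReal_inv_of_pos (ENNReal.toReal_pos h0 h1), ENNReal.ofReal_toReal h1]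
  have h2 := nv_le.1 (le_refl (nv C lam T)) _ (cm_smul (((√k.toReal)⁻¹ : ℝ) : ℂ) hb) fun ξ => by
    simp only [smul_apply, enorm_smul, mul_pow, e]
    rw [lintegral_const_mul' _ _ (ENNReal.inv_ne_top.2 h0), one_mul,
      ← ENNReal.mul_le_mul_iff_right h0 h1, ← mul_assoc, ENNReal.mul_inv_cancel h0 h1, one_mul]
    exact up ξ
  rw [map_smulₛₗ, mul_smul_comm, C.t.Tr_smul, Complex.conj_ofReal, e] at h2
  rwa [← ENNReal.mul_le_mul_iff_right h0 h1, ← mul_assoc, ENNReal.mul_inv_cancel h0 h1,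
    one_mul] at h2

theorem nv_mono (h : ∀ ξ, ‖T ξ‖ ≤ ‖T' ξ‖) : nv C lam T ≤ nv C lam T' :=
  nv_le.2 fun b hb up => (C.t.Tr_mono (T := T * adjoint b) (T' := T' * adjoint b)
    fun ξ => h (adjoint b ξ)).trans (nv_le.1 (le_refl (nv C lam T')) b hb up)

theorem nv_eq_zero (hH : Hm H lam) (hT : Cm W T) (h : nv C lam T = 0) : T = 0 :=
  eq_zero_of_P C.s fun D hD => by
    have m := hD.measurableSet
    have := le_nv (C := C) (T := T) (C.s.cm_P m) (k := lam (D * D⁻¹) + 1) (by simp)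
      (ENNReal.add_ne_top.2 ⟨(hH.fin _ (hD.mul hD.inv)).ne, ENNReal.one_ne_top⟩)
      fun ξ => (up_P C.s hH hD ξ).trans (mul_le_mul_left le_self_add _)
    rw [h, mul_zero, C.s.adjoint_P m] at this
    exact C.tr_zero _ (cm_mul hT (C.s.cm_P m)) (le_zero_iff.1 this)

theorem nv_uni (hu : u ∈ unitary (K →L[ℂ] K)) (cu : Cm W u)
    (e : ∀ᵐ g ∂lam, ∃ c : ℂ, C.s.π g * star u * C.s.π g⁻¹ = c • star u) :
    nv C lam (u * T * star u) ≤ nv C lam T := nv_le.2 fun b hb up => by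
  have h1 := nv_le.1 (le_refl (nv C lam T)) (b * u) (cm_mul hb cu) fun ξ => by
    refine le_trans (lintegral_mono_ae (e.mono fun g ⟨c, hc⟩ => le_of_eq ?_))
      ((up (u ξ)).trans_eq (by rw [← ofReal_norm, norm_map_of_mem_unitary hu, ofReal_norm]))
    have h2 : ‖c‖ = 1 := by
      have := congrArg (fun X : K →L[ℂ] K => ‖X C.s.Ω‖) hc
      simp only [mul_ap, C.s.norm_π, smul_apply, norm_smul,
        norm_map_of_mem_unitary (Unitary.star_mem hu), C.s.nΩ, mul_one] at this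
      exact this.symm
    have h3 : C.s.π g⁻¹ * u = c • (u * C.s.π g⁻¹) := by
      rw [← one_mul (C.s.π g⁻¹ * u), ← (Unitary.mem_iff.1 hu).2, ← one_mul (star u),
        ← pi_inv_mul (π := C.s.π) g]
      simp only [mul_assoc]
      rw [← mul_assoc (star u), ← mul_assoc (C.s.π g), ← mul_assoc (C.s.π g), hc, smul_mul_assoc,
        (Unitary.mem_iff.1 hu).1]
      simp only [mul_smul_comm, mul_one]
    rw [← mul_ap (C.s.π _), h3, smul_apply, map_smul, enorm_smul, ← ofReal_norm c, h2]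
    simp only [ENNReal.ofReal_one, one_mul, mul_ap]
  refine le_trans (le_of_eq (C.t.Tr_congr fun ξ => ?_)) h1
  rw [adj_mul, ← star_eq_adjoint u]
  simp only [mul_ap, norm_map_of_mem_unitary hu]

theorem nv_conj (hH : Hm H lam) (hT : Cm W T) {q : G} (hq : q ∈ Subgroup.normalizer (H : Set G)) :
    nv C lam (C.s.π q * T * C.s.π q⁻¹) ≤ eo (-mdl H q) * nv C lam T := nv_le.2 fun b hb up => by
  have h1 := C.s.conj _ hb q⁻¹
  refine le_trans (le_of_eq ?_) (le_nv h1 (eo_ne_zero _) (eo_ne_top _) fun ξ => ?_)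
  · rw [← C.Tr_σ (cm_mul hT (C.adj_cm h1)) q, C.s.conj_mul, ← C.s.conj_adj, C.s.conj_conj,
      mul_inv_cancel, inv_one, map_one, one_mul, mul_one]
  · have h2 := hH.lint_conj (Subgroup.inv_mem _ hq) fun g => ‖b (C.s.π g⁻¹ (C.s.π q ξ))‖ₑ ^ 2
    rw [mdl_inv hH.cl hq] at h2
    refine le_trans (le_of_eq (Eq.trans (lintegral_congr fun g => ?_) h2))
      (mul_le_mul_right ((up _).trans_eq (by rw [one_mul, C.s.enorm_π])) _)
    simp only [mul_ap, C.s.enorm_π, pi_ap, inv_inv, mul_inv_rev, mul_assoc, inv_mul_cancel, mul_one]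

variable {Y Z : Type} [MeasurableSpace Y] [MeasurableSpace Z] [MulAction G' Y] [MulAction G' Z]
  {c : Cn G' Y Z} {S : Set G} {E : POM Y K} {θ : POM Z K} {κ : G' → Y → ℂ}

theorem shift_uni (h : c.Pv C S E θ) (hu : u ∈ unitary (K →L[ℂ] K))
    (hE : ∀ φ, Bd φ → u * E.f φ = E.f φ * u)
    (hX : ∀ t, u * θ.f (ex t c.ht) * star u ∈ c.X C S E t) :
    ∃ k : ℝ, ∀ F, Bd F → u * θ.f F * star u = θ.f (F ∘ c.sh k) := by
  have hU := P092SB.op_ex h.isP c.mht
  obtain ⟨u1, u2⟩ := Unitary.mem_iff.1 hu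
  choose χ hχ using fun t => h.gen t _ (hX t)
  have n1 : ∀ t, ‖θ.f (ex t c.ht) C.s.Ω‖ = 1 := fun t => (hU.norm t _).trans C.s.nΩ
  have e1 : ∀ t, χ t = ⟪θ.f (ex t c.ht) C.s.Ω, u (θ.f (ex t c.ht) (star u C.s.Ω))⟫_ℂ :=
    fun t => by
      have := congrArg (fun T : K →L[ℂ] K => ⟪θ.f (ex t c.ht) C.s.Ω, T C.s.Ω⟫_ℂ) (hχ t)
      simp only [smul_apply, inner_smul_right, inner_self_eq_norm_sq_to_K, n1] at this
      simpa using this.symm
  obtain ⟨k, hk⟩ := P092SB.char (χ := χ) (by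
    rw [funext e1]
    exact (hU.cont _).inner (u.continuous.comp (hU.cont _))) (fun s t => by
    have h1 := hχ (s + t)
    rw [hU.add, show ∀ x y : K →L[ℂ] K, u * (x * y) * star u = u * x * star u * (u * y * star u) from
      fun x y => by simp only [mul_assoc]; rw [← mul_assoc (star u), u1, one_mul], hχ, hχ,
      smul_mul_smul_comm, ← hU.add, ← sub_eq_zero, ← sub_smul] at h1
    have := congrArg (fun T : K →L[ℂ] K => ‖T C.s.Ω‖) h1
    simp only [smul_apply, norm_smul, n1, zero_apply, norm_zero, mul_one, norm_eq_zero] at this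
    exact (sub_eq_zero.1 this).symm) fun t => by
    have := congrArg (fun T : K →L[ℂ] K => ‖T C.s.Ω‖) (hχ t)
    simp only [smul_apply, norm_smul, n1, mul_ap, norm_map_of_mem_unitary hu,
      norm_map_of_mem_unitary (Unitary.star_mem hu), hU.norm, C.s.nΩ] at this
    simpa using this.symm
  refine ⟨k, c.ext (h.isP.cj rfl u2 u1) (h.isP.map (c.msh k)) (fun φ hφ => ?_) fun t => ?_⟩
  · rw [POM.cj_f, h.dir φ hφ, hE φ hφ, mul_assoc, u2, mul_one, ← h.dir φ hφ, POM.map_f]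
    simp only [Function.comp_def, Cn.sh, c.dir_e]
  · rw [POM.cj_f, hχ, hk, POM.map_f, ← θ.smul _ (bd_ex t c.mht)]
    congr 1
    ext z
    simp [ex, Cn.sh, c.ht_e, mul_add, add_mul, Complex.exp_add, mul_comm]

theorem xm_uni (hS : Moore S) (hE : E.IsP) (bκ : ∀ k, Bd (κ k)) (uκ : ∀ k y, ‖κ k y‖ = 1)
    {a : K →L[ℂ] K} (ha : a ∈ Xm C S E κ) :
    ∃ (z : ℂ) (u : K →L[ℂ] K), u ∈ unitary (K →L[ℂ] K) ∧ (a = 0 ∨ u ∈ Xm C S E κ) ∧ a = z • u := by
  have e1 : star κ * κ = 1 := funext fun k => funext fun y => by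
    simp [Complex.conj_mul', uκ]
  have bs : ∀ k, Bd ((star κ) k) := fun k => (bκ k).star
  obtain ⟨c, hc⟩ := Xm.zero hS hE (e1 ▸ Xm.mul hE bs bκ (Xm.star bκ ha) ha)
  obtain ⟨d, hd⟩ := Xm.zero hS hE ((mul_comm _ _).trans e1 ▸ Xm.mul hE bκ bs ha (Xm.star bκ ha))
  rcases eq_or_ne a 0 with rfl | h0
  · exact ⟨0, 1, one_mem _, .inl rfl, (zero_smul _ _).symm⟩
  have e2 : c = d := by
    have : a * (star a * a) = a * star a * a := (mul_assoc _ _ _).symm
    rw [hc, hd, mul_smul_comm, smul_mul_assoc, mul_one, one_mul] at this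
    exact smul_left_injective ℂ h0 this
  have e3 : c = ((‖a C.s.Ω‖ : ℂ)) ^ 2 := by
    have : ⟪C.s.Ω, (star a * a) C.s.Ω⟫_ℂ = ⟪a C.s.Ω, a C.s.Ω⟫_ℂ := by
      rw [mapp, star_eq_adjoint, adjoint_inner_right]
    rw [hc, smul_apply, oapp, inner_smul_right, inner_self_eq_norm_sq_to_K,
      inner_self_eq_norm_sq_to_K, C.s.nΩ] at this
    simpa using this
  have e4 : (‖a C.s.Ω‖ : ℂ) ≠ 0 := fun h => h0 (by
    rw [e3, h, zero_pow two_ne_zero, zero_smul] at hc
    exact CStarRing.star_mul_self_eq_zero_iff a |>.1 hc)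
  refine ⟨‖a C.s.Ω‖, (‖a C.s.Ω‖ : ℂ)⁻¹ • a, Unitary.mem_iff.2 ⟨?_, ?_⟩, .inr (Xm.smul _ ha),
    by rw [smul_smul, mul_inv_cancel₀ e4, one_smul]⟩
  · rw [star_smul, smul_mul_smul_comm, hc, e3, smul_smul]
    simp [sq, mul_assoc, e4]
  · rw [star_smul, smul_mul_smul_comm, hd, ← e2, e3, smul_smul]
    simp [sq, mul_assoc, e4]

theorem xm_line (hS : Moore S) (hE : E.IsP) (bκ : ∀ k, Bd (κ k)) (uκ : ∀ k y, ‖κ k y‖ = 1)
    (hu : u ∈ unitary (K →L[ℂ] K)) (xu : u ∈ Xm C S E κ) {a : K →L[ℂ] K} (ha : a ∈ Xm C S E κ) :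
    ∃ z : ℂ, a = z • u := by
  have e1 : κ * star κ = 1 := funext fun k => funext fun y => by
    simp [Complex.mul_conj', uκ]
  obtain ⟨d, hd⟩ := Xm.zero hS hE (e1 ▸ Xm.mul hE bκ (fun k => (bκ k).star) ha (Xm.star bκ xu))
  exact ⟨d, by rw [← mul_one a, ← (Unitary.mem_iff.1 hu).1, ← mul_assoc, hd, smul_mul_assoc, one_mul]⟩

/-- `p` normalises `S` and fixes `E` -/
def Nrm (C : Cpl μ μ' W) (S : Set G) (E : POM Y K) (p : G) : Prop :=
  (∀ s ∈ S, p⁻¹ * s * p ∈ S) ∧ ∀ φ, Bd φ → C.s.π p * E.f φ * C.s.π p⁻¹ = E.f φ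

/-- **RAD** -/
theorem rad (hS : Moore S) (h : c.Pv C S E θ) (hE : E.IsP) (hH : Hm H lam)
    (nH : ∀ p ∈ H, Nrm C S E p) {q : G} (hq : q ∈ Subgroup.normalizer (H : Set G))
    (q0 : 0 < mdl H q) (nq : Nrm C S E q) {B : Set Y} (mB : MeasurableSet B) (h0 : E.P B ≠ 0)
    (fin : ∀ R, nv C lam (θ.P {z | c.dir z ∈ B ∧ |c.ht z| ≤ R}) ≠ ∞) (bκ : ∀ k, Bd (κ k))
    (uκ : ∀ k y, ‖κ k y‖ = 1) {a : K →L[ℂ] K} (ha : a ∈ Xm C S E κ) (F : Z → ℂ) (hF : Bd F) :
    a * θ.f F = θ.f F * a := by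
  obtain ⟨z, u, hu, rfl | xu, e⟩ := xm_uni hS hE bκ uκ ha
  · rw [zero_mul, mul_zero]
  have bs : ∀ k, Bd ((star κ) k) := fun k => (bκ k).star
  have us : ∀ k y, ‖(star κ) k y‖ = 1 := fun k y => by simpa using uκ k y
  have xs := Xm.star bκ xu
  obtain ⟨u1, u2⟩ := Unitary.mem_iff.1 hu
  obtain ⟨β, hβ⟩ := shift_uni h hu xu.2.1 fun t => by
    have b1 := fun k => bd_ex t (c.mco k⁻¹)
    have := Xm.mul hE (fun k => (bκ k).mul (b1 k)) bs (Xm.mul hE bκ b1 xu (h.mem t)) xs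
    rwa [show (fun k => κ k * ex t (c.co k⁻¹)) * star κ = fun k => ex t (c.co k⁻¹) from
      funext fun k => funext fun y => by
        show κ k y * ex t (c.co k⁻¹) y * (starRingEnd ℂ) (κ k y) = ex t (c.co k⁻¹) y
        rw [mul_right_comm, Complex.mul_conj', uκ]
        simp] at this
  obtain ⟨k, -, hk⟩ := h.shift nq.1 nq.2
  let A : ℝ → ℝ → Set Z := fun R x => {z | c.dir z ∈ B ∧ |c.ht z + x| ≤ R}
  have mA : ∀ R x, MeasurableSet (A R x) := fun R x => (c.mdir mB).inter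
    (measurableSet_le (measurable_abs.comp (c.mht.add_const x)) measurable_const)
  have sh : ∀ R x y, (A R x).indicator (1 : Z → ℂ) ∘ c.sh y = (A R (x + y)).indicator 1 :=
    fun R x y => by
      rw [show A R (x + y) = c.sh y ⁻¹' A R x from Set.ext fun z => by
        simp only [A, mem_preimage, mem_setOf_eq, Cn.sh, c.dir_e, c.ht_e, add_assoc, add_comm y]]
      rfl
  have hβ0 : β = 0 := by
    by_contra h1
    suffices h2 : ∀ R, θ.P (A R 0) = 0 by
      refine h0 ((h.dir _ (bd_ind1 mB)).symm.trans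
        ((θ.P_eq_zero_iff (c.mdir mB)).2 fun ξ => measure_mono_null (fun z hz => ?_)
          (measure_iUnion_null fun n : ℕ => (θ.P_eq_zero_iff (mA n 0)).1 (h2 n) ξ)))
      obtain ⟨n, hn⟩ := exists_nat_ge |c.ht z + 0|
      exact mem_iUnion.2 ⟨n, hz, hn⟩
    intro R
    have p1 : Function.Periodic (fun x => nv C lam (θ.P (A R x))) β := fun x => by
      have h2 : u * θ.P (A R x) * star u = θ.P (A R (x + β)) := by
        rw [POM.P, hβ _ (bd_ind1 (mA R x)), sh, POM.P]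
      refine le_antisymm ((congrArg (nv C lam) h2).ge.trans <| nv_uni hu xu.1 (hH.ae.mono fun g hg => xm_line hS hE bs us
        (Unitary.star_mem hu) xs (Xm.conj bs xs (nH g hg).1 (nH g hg).2))) ?_
      have h3 := nv_uni (C := C) (lam := lam) (T := θ.P (A R (x + β))) (Unitary.star_mem hu) xs.1
        (hH.ae.mono fun g hg => by
          rw [star_star]
          exact xm_line hS hE bκ uκ hu xu (Xm.conj bκ xu (nH g hg).1 (nH g hg).2))
      refine le_trans (le_of_eq (congrArg (nv C lam) ?_)) h3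
      rw [← h2, star_star, ← mul_assoc, ← mul_assoc, u1, one_mul, mul_assoc, u1, mul_one]
    have p2 : Function.Periodic (fun x => nv C lam (θ.P (A R x))) |β| := by
      rcases abs_choice β with h2 | h2 <;> rw [h2]
      exacts [p1, p1.neg]
    have h2 : ⨆ x, nv C lam (θ.P (A R x)) ≠ ∞ := ne_top_of_le_ne_top (fin (R + |β|))
      (iSup_le fun x => by
        obtain ⟨y, hy, e⟩ := p2.exists_mem_Ico₀ (abs_pos.2 h1) x
        refine e.trans_le (nv_mono fun ξ => h.isP.norm_P_mono (mA R y)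
          (B := {z | c.dir z ∈ B ∧ |c.ht z| ≤ R + |β|})
          (by simpa only [A, add_zero] using mA (R + |β|) 0) (fun z hz => ?_) ξ)
        have h3 := abs_le.1 hz.2
        exact ⟨hz.1, abs_le.2 ⟨by linarith [hy.2], by linarith [hy.1, abs_nonneg β]⟩⟩)
    have h3 : ⨆ x, nv C lam (θ.P (A R x)) ≤ eo (-mdl H q) * ⨆ x, nv C lam (θ.P (A R x)) :=
      iSup_le fun x => by
        have h4 : C.s.π q * θ.P (A R (x - k)) * C.s.π q⁻¹ = θ.P (A R x) := by
          rw [POM.P, hk _ (bd_ind1 (mA R (x - k))), sh, sub_add_cancel, POM.P]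
        exact (congrArg (nv C lam) h4).ge.trans <| (nv_conj hH (h.inv.cm _ (bd_ind1 (mA R _))) hq).trans
          (mul_le_mul_right (le_iSup (fun x => nv C lam (θ.P (A R x))) (x - k)) _)
    refine nv_eq_zero (C := C) hH (h.inv.cm _ (bd_ind1 (mA R 0))) (le_zero_iff.1
      ((le_iSup (fun x => nv C lam (θ.P (A R x))) 0).trans (le_of_eq ?_)))
    by_contra h4
    have h5 : eo 0 ≤ eo (-mdl H q) := by
      rw [eo_zero, ← ENNReal.mul_le_mul_iff_left h4 h2, one_mul]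
      exact h3
    linarith [eo_le.1 h5]
  have h1 := hβ F hF
  rw [hβ0, show c.sh 0 = id from funext fun z => by simp [Cn.sh, c.e_dir], Function.comp_id] at h1
  rw [e, smul_mul_assoc, mul_smul_comm]
  conv_rhs => rw [← h1, mul_assoc, u1, mul_one]

end Vale.Agent.P092FV
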